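import Vale.Agent.P261.H84.Tower

/-!
# P261 (helper84): Smith-Toda complexes at the primes `3`, `5`, `7`

* `prodVan_small`, `liftVan_small` : the vanishing statements for `p = 3`, `h = 1`; `p = 5`,
  `h ≤ 2`; `p = 7`, `h ≤ 3`;
* `hasMoore_of_sq` : generalised Moore spectra of type `n + 1` exist for `n ≤ 4` and all primes `p`
  with `n ^ 2 + 1 < 2 (p - 1)`.
-/

open CategoryTheory MonoidalCategory MonObj Limits Pretriangulated

set_option linter.unusedSectionVars false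

noncomputable section

namespace Vale.Agent.P261.H84

open Vale.Agent.P251 Vale.Agent.P251.T Vale.Agent.P251.M Vale.Agent.P251.F
  Vale.Agent.P251.I EvenSpheres Vale.Agent.P257.H702 Vale.Agent.P257.H80 Vale.Agent.P257.H314
  Vale.Agent.P251.St Vale.Agent.P251.St.SHCat Vale.Agent.P257.St Vale.Agent.P257.H712
open Vale.Agent.P221
open Vale.Agent.P257 (H327.Mon)

/-- the vanishing groups from the May bound -/
theorem stab_of_mon {p : ℕ} [Fact p.Prime] {s W : ℕ} (h : ∀ x : H327.Mon, x.s = s → x.W p ≠ W) :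
    StabVan p s (W : ℤ) :=
  (Vale.Agent.P257.H545.cmpP (Vale.Agent.P257.H545.infCmp p)).stabVan_of_van
    ((Vale.Agent.P257.H545.van_iff _ _).2 (Vale.Agent.P257.H545.boundP s W h))

/-- The vanishing statements for the unital products. -/
theorem prodVan_small {p h : ℕ} [Fact p.Prime] (hh : 1 ≤ h)
    (hp : p = 3 ∧ h ≤ 1 ∨ p = 5 ∧ h ≤ 2 ∨ p = 7 ∧ h ≤ 3) : ProdVan p h := by
  refine prodVan_of_stab hh (by omega) (by omega) fun A B hA hB hA' hB' k hk s hs => ?_
  have hA4 : A ⊆ Finset.range 4 := hA.trans (Finset.range_subset_range.2 (by omega))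
  have hB4 : B ⊆ Finset.range 4 := hB.trans (Finset.range_subset_range.2 (by omega))
  have hAc : A.card ≤ h := by simpa using Finset.card_le_card hA
  have hBc : B.card ≤ h := by simpa using Finset.card_le_card hB
  have hA1 := hA'.card_pos
  have hB1 := hB'.card_pos
  have hAi : ∀ i, h ≤ i → i ∉ A := fun i hi h1 => by
    have := Finset.mem_range.1 (hA h1)
    omega
  have hBi : ∀ i, h ≤ i → i ∉ B := fun i hi h1 => by
    have := Finset.mem_range.1 (hB h1)
    omega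
  obtain ⟨n1, h1, hn1, hn1'⟩ : ∃ n1 : ℕ, n1 = (if 1 ∈ A then 1 else 0) + (if 1 ∈ B then 1 else 0) ∧
    n1 ≤ 2 ∧ (h ≤ 1 → n1 = 0) := ⟨_, rfl, by split_ifs <;> simp, fun h0 => by
      rw [if_neg (hAi 1 h0), if_neg (hBi 1 h0)]⟩
  obtain ⟨n2, h2, hn2, hn2'⟩ : ∃ n2 : ℕ, n2 = (if 2 ∈ A then 1 else 0) + (if 2 ∈ B then 1 else 0) ∧
    n2 ≤ 2 ∧ (h ≤ 2 → n2 = 0) := ⟨_, rfl, by split_ifs <;> simp, fun h0 => by
      rw [if_neg (hAi 2 h0), if_neg (hBi 2 h0)]⟩
  have h3A : 3 ∉ A := hAi 3 (by omega)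
  have h3B : 3 ∉ B := hBi 3 (by omega)
  have hsum : ∑ a ∈ A, (Wn p a : ℤ) + ∑ b ∈ B, (Wn p b : ℤ) + k =
      ((k + n1 + n2 * (1 + p) : ℕ) : ℤ) := by
    rw [Vale.Agent.P257.H545.Cmp.sum_range4 A hA4, Vale.Agent.P257.H545.Cmp.sum_range4 B hB4, h1,
      h2, if_neg h3A, if_neg h3B]
    simp only [Wn, Finset.sum_range_succ, Finset.sum_range_zero]
    push_cast
    ring
  rw [hsum]
  refine stab_of_mon fun x hxs hxW => ?_
  have hl := H327.Mon.line (p := p) (by omega) x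
  rw [hxs, hxW] at hl
  rcases hp with ⟨rfl, hp⟩ | ⟨rfl, hp⟩ | ⟨rfl, hp⟩
  · obtain rfl := hn1' hp
    obtain rfl := hn2' (by omega)
    omega
  · obtain rfl := hn2' hp
    omega
  · omega

/-- The vanishing statements for the lifts of `v_1`, `v_2`, `v_3`. -/
theorem liftVan_small {p h : ℕ} [Fact p.Prime] (hh : 1 ≤ h)
    (hp : p = 3 ∧ h ≤ 1 ∨ p = 5 ∧ h ≤ 2 ∨ p = 7 ∧ h ≤ 3) : LiftVan p h := by
  refine liftVan_of_stab hh fun k hk => ?_
  have e : (Wn p h : ℤ) + k = ((Wn p h + k : ℕ) : ℤ) := by push_cast; ring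
  rw [e]
  refine stab_of_mon fun x hxs hxW => ?_
  have hl := H327.Mon.line (p := p) (by omega) x
  rw [hxs, hxW] at hl
  have hW1 : Wn p 1 = 1 := by simp [Wn]
  have hW2 : Wn p 2 = 1 + p := by simp [Wn, Finset.sum_range_succ]
  have hW3 : Wn p 3 = 1 + p + p ^ 2 := by simp [Wn, Finset.sum_range_succ]
  rcases hp with ⟨rfl, hp⟩ | ⟨rfl, hp⟩ | ⟨rfl, hp⟩
  · obtain rfl : h = 1 := by omega
    rw [hW1] at hl
    omega
  · obtain rfl | rfl : h = 1 ∨ h = 2 := by omega
    · rw [hW1] at hl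
      omega
    · rw [hW2] at hl
      omega
  · obtain rfl | rfl | rfl : h = 1 ∨ h = 2 ∨ h = 3 := by omega
    · rw [hW1] at hl
      omega
    · rw [hW2] at hl
      omega
    · rw [hW3] at hl hxW
      have hk1 : k = 1 := by omega
      subst hk1
      have hW : x.W 7 < 7 ^ 3 := by
        rw [hxW]
        norm_num
      have es := H327.Mon.s_eq3 (by norm_num) hW
      have eW := H327.Mon.W_eq3 (by norm_num) hW
      rw [hxs] at es
      rw [hxW] at eW
      have := x.e_nonneg (0, 0)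
      have := x.e_nonneg (0, 1)
      have := x.e_nonneg (0, 2)
      have := x.e_nonneg (1, 0)
      have := x.e_nonneg (1, 1)
      have := x.e_nonneg (2, 0)
      have := x.e_le_one (0, 0)
      have := x.e_le_one (0, 1)
      have := x.e_le_one (0, 2)
      have := x.e_le_one (1, 0)
      have := x.e_le_one (1, 1)
      have := x.e_le_one (2, 0)
      have := x.m_nonneg (0, 0)
      have := x.m_nonneg (0, 1)
      have := x.m_nonneg (1, 0)
      push_cast at es eW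
      have hA : x.e (0, 0) + x.e (1, 0) + x.e (2, 0) = 2 := by omega
      have hC : x.e (0, 2) + x.e (1, 1) + x.e (2, 0) + x.m (0, 1) + x.m (1, 0) = 0 ∨
          x.e (0, 2) + x.e (1, 1) + x.e (2, 0) + x.m (0, 1) + x.m (1, 0) = 1 := by omega
      rcases hC with hC | hC <;> omega

section lib

universe v u

variable {T : Type u} [Category.{v} T] [Preadditive T] [HasZeroObject T] [HasShift T ℤ]
  [∀ n : ℤ, (shiftFunctor T n).Additive] [Pretriangulated T]
  [MonoidalCategory T] [SymmetricCategory T] [TensorTriangulated T] [HasCoproducts.{0} T]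
  [MonoidalClosed T] [IsTriangulated T] [HasProducts.{0} T] [StableCat T]

/-- **Existence of `V(N)`** from the vanishing statements. -/
theorem exists_isST {D : MUData T} {p : ℕ} [Fact p.Prime] (hp : p ≠ 2) {C : T} {iC : 𝟙_ T ⟶ C}
    {δ : C ⟶ (𝟙_ T)⟦(1 : ℤ)⟧}
    (hC : Triangle.mk ((p : ℤ) • 𝟙 (𝟙_ T)) iC δ ∈ distTriang T) (N : ℕ)
    (hP : ∀ h, 1 ≤ h → h ≤ N → ProdVan p h) (hL : ∀ h, 1 ≤ h → h ≤ N → LiftVan p h) :
    ∃ (V : T) (i : 𝟙_ T ⟶ V), IsST D p iC (N + 1) i := by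
  induction N with
  | zero => exact ⟨C, iC, isST_one (D := D) hp hC⟩
  | succ N ih =>
    obtain ⟨V, i, H⟩ := ih (fun h h1 h2 => hP h h1 (by omega)) fun h h1 h2 => hL h h1 (by omega)
    obtain ⟨m⟩ := H.exists_uprod (hP _ (by omega) le_rfl)
    obtain ⟨x, hx⟩ := H.exists_det_v (hL _ (by omega) le_rfl)
    exact H.next m hx

end lib

variable {T : SHCat} {S : Susp T} {p n : ℕ}

/-- generalised Moore spectra at the primes `3`, `5`, `7` -/
theorem hasMoore_small [hp : Fact p.Prime] (hn : 1 ≤ n)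
    (h3 : p = 3 ∧ n ≤ 1 ∨ p = 5 ∧ n ≤ 2 ∨ p = 7 ∧ n ≤ 3) : StT.HasMoore S p n := by
  obtain ⟨D, hD, ⟨U'⟩, -⟩ :=
    Vale.Agent.P257.H80.exists_muAll S.toSpaceFunctor (P251.M.lineIso S.toSpaceFunctor)
  obtain ⟨U⟩ := Vale.Agent.P251.S.exists_unitCof D.R
  obtain ⟨C, iC, δ, hC⟩ := distinguished_cocone_triangle ((p : ℤ) • 𝟙 (𝟙_ T.C))
  obtain ⟨V, i, hV⟩ := exists_isST (D := D) (by omega) hC n
    (fun h h1 h2 => prodVan_small h1 (by omega)) fun h h1 h2 => liftVan_small h1 (by omega)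
  obtain ⟨P, o, φ, hφ⟩ := exists_isBrownPeterson S p
  obtain ⟨b, hb, ho⟩ := U'.exists_mapS o
  have hbP : IsBPMon p b := isBPMon_of_isBrownPeterson ptypOut hD U' ptypIn hφ ho
  obtain ⟨Φ, hΦ1, hΦ2⟩ := ptypOut P o φ hφ.typ
  have h4 : lawOf b = (haz p).map Φ := by rw [← hΦ2, U'.lawS_eq ho]; rfl
  exact ⟨P, o, φ, V, hφ, (isTower_of_sTow (by omega) hD hC hbP h4 hΦ1 hV.tow).2⟩

/-- **generalised Moore spectra of type `n + 1` exist** for `n ≤ 4` in the sparse range -/
theorem hasMoore_of_sq [hp : Fact p.Prime] (hn : 1 ≤ n) (h4 : n ≤ 4)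
    (hs : n ^ 2 + 1 < 2 * (p - 1)) : StT.HasMoore S p n := by
  rcases Nat.lt_or_ge p 11 with h | h
  · refine hasMoore_small hn ?_
    have hpp := hp.out
    obtain rfl | rfl | rfl | rfl : n = 1 ∨ n = 2 ∨ n = 3 ∨ n = 4 := by omega
    · interval_cases p <;> first | omega | exact absurd hpp (by norm_num)
    · interval_cases p <;> first | omega | exact absurd hpp (by norm_num)
    · interval_cases p <;> first | omega | exact absurd hpp (by norm_num)
    · interval_cases p <;> first | omega | exact absurd hpp (by norm_num)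
  · exact hasMoore_of_le h h4

end Vale.Agent.P261.H84
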