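import Vale.Agent.P251.St.Chrom
import Mathlib.NumberTheory.Padics.RingHoms

/-!
# P261, statement layer: finite type, local objects, growth

Definitions on top of the ones of `P251/St/Base.lean` and `P251/St/Chrom.lean`.
-/

namespace Vale.Agent.P261.StK

open Vale.Agent.P251.St Vale.Agent.P251.St.SHCat

/-- The abelian group `A` is the underlying group of a finitely generated module over `ℤ_p`. -/
def FG (p : ℕ) [Fact p.Prime] (A : Type) [AddCommGroup A] : Prop :=
  ∃ m : Module ℤ_[p] A, @Module.Finite ℤ_[p] A _ _ m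

variable {T : SHCat}

/-- `Y` is `E`-local: every map to `Y` from an `E`-acyclic object is zero. -/
def IsLocal (E Y : T.C) : Prop := ∀ W : T.C, Acyclic E W → ∀ g : Hom W Y, g = 0

/-- The group `π_t W` is finite, of order at most `p ^ (c (1 + |t|) ^ d)`, for all `t`, for a
constant `c`. -/
def Growth (p d : ℕ) (W : T.C) : Prop :=
  ∃ c : ℕ, ∀ t : ℤ, Finite (Hom (sphere T t) W) ∧
    Nat.card (Hom (sphere T t) W) ≤ p ^ (c * (1 + t.natAbs) ^ d)

end Vale.Agent.P261.StK
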