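import Vale.Agent.P257.H80.StBP
import Vale.Agent.P261.H84.StG

/-!
# P261, statement layer: thick subcategories and standard forms of `BP⟨n⟩`

The definitions of `P221/St/Mc.lean` which are needed here.
-/

open CategoryTheory MonoidalCategory

noncomputable section

namespace Vale.Agent.P261.StK

open Vale.Agent.P251.St Vale.Agent.P251.St.SHCat Vale.Agent.P257.St

variable {T : SHCat}

/-- `Thick B` is the thick subcategory generated by `B`: the smallest class of spectra which
contains `B` and `0` and is closed under suspensions (of all integer degrees), cofiber sequences and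
retracts (hence under isomorphisms and finite sums). -/
inductive Thick (B : T.C) : T.C → Prop
  | base : Thick B B
  | zero {X : T.C} : ident X = 0 → Thick B X
  | susp (k : ℤ) {X : T.C} : Thick B X → Thick B (X⟦k⟧)
  | cof {X Y Z : T.C} {f : Hom X Y} {g : Hom Y Z} {h : Hom Z (sus X)} :
      Dist f g h → Thick B X → Thick B Y → Thick B Z
  | retract {X Y : T.C} (i : Hom X Y) (r : Hom Y X) :
      comp i r = ident X → Thick B Y → Thick B X

/-- `π_k f` is bijective for all large `k`. -/
def EvIso {X Y : T.C} (f : Hom X Y) : Prop :=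
  ∃ N : ℤ, ∀ k ≥ N, Function.Bijective fun x : Hom (sphere T k) X => comp x f

/-- `X` is `p`-complete: there are no nonzero maps `W ⟶ X` if `p` is invertible on `W`. -/
def PComplete (p : ℕ) (X : T.C) : Prop :=
  ∀ W : T.C, IsIso (zmul p (ident W)) → ∀ g : Hom W X, g = 0

/-- `c : X ⟶ Y` is the `p`-completion of `X`. -/
def IsPCompletion (p : ℕ) {X Y : T.C} (c : Hom X Y) : Prop :=
  PComplete p Y ∧ ∀ Z : T.C, PComplete p Z → ∀ f : Hom X Z, ∃! g : Hom Y Z, comp c g = f

variable {R : RingSp T} {S : Susp T} {p : ℕ}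

/-- `a : R ⊗ X ⟶ X` makes `X` a homotopy `R`-module. -/
def IsAct {X : T.C} (a : Hom (ten R.obj X) X) : Prop :=
  comp (leftInv X) (comp (tenR R.unit X) a) = ident X ∧
    comp (tenR R.mul X) a = comp (assoc R.obj R.obj X) (comp (tenL R.obj a) a)

/-- `x ∈ π_{2(p^j-1)} R` is a polynomial generator: up to a factor prime to `p` it is the value of a
polynomial `w ∈ ℤ[v_1, v_2, …]` of degree `2(p^j-1)` in which the coefficient of `v_j` is prime
to `p`. (For `R = BP`, where `π_* R = ℤ_(p)[v_1, v_2, …]`, this means that `x` is the product of a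
unit with `v_j`, modulo decomposable elements.) -/
def IsPolyGen (φ : GHom S p R) (j : ℕ) (x : Hom (S.obj (Cn (p ^ j - 1))) R.obj) : Prop :=
  ∃ (m : ℤ) (w : VPoly p (p ^ j - 1)), ¬ (p : ℤ) ∣ m ∧
    ¬ (p : ℤ) ∣ MvPolynomial.coeff (Finsupp.single (j - 1) 1) (w : MvPolynomial ℕ ℤ) ∧
    zmul m x = φ.val w

/-- `q : R ⟶ C` is the quotient of `R` by the elements `x_{n+1}, x_{n+2}, …` of its homotopy, as a
homotopy `R`-module: it is `R`-linear and onto on homotopy, and the kernel of `π_* q` consists of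
the finite sums of products `b_j x_j`, `j > n`. -/
structure IsQuotient (n : ℕ) (x : ∀ j : ℕ, Hom (S.obj (Cn (p ^ j - 1))) R.obj) {C : T.C}
    (a : Hom (ten R.obj C) C) (q : Hom R.obj C) : Prop where
  act : IsAct a
  map : comp R.mul q = comp (tenL R.obj q) a
  surj : ∀ (k : ℤ) (y : Hom (sphere T k) C), ∃ u : Hom (sphere T k) R.obj, comp u q = y
  ker : ∀ (k : ℤ) (u : Hom (sphere T k) R.obj), comp u q = 0 ↔
    ∃ (N : ℕ) (b : ∀ j : ℕ, Hom (sphere T k) (ten R.obj (S.obj (Cn (p ^ j - 1))))),
      u = ∑ j ∈ Finset.Ioc n N, comp (b j) (comp (tenHom (ident R.obj) (x j)) R.mul)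

/-- `B` is a standard form of `BP⟨n⟩_p`: the `p`-completion of the quotient of the Brown-Peterson
spectrum by polynomial generators `x_j` of degree `2(p^j-1)`, `j > n`. -/
def IsStandardForm (S : Susp T) (p n : ℕ) (B : T.C) : Prop :=
  ∃ (P : RingSp T) (o : Oriented S P) (φ : GHom S p P)
    (x : ∀ j : ℕ, Hom (S.obj (Cn (p ^ j - 1))) P.obj)
    (C : T.C) (a : Hom (ten P.obj C) C) (q : Hom P.obj C) (c : Hom C B),
    IsBrownPeterson p o φ ∧ (∀ j, n < j → IsPolyGen φ j (x j)) ∧ IsQuotient n x a q ∧
      IsPCompletion p c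

end Vale.Agent.P261.StK
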