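import Vale.Agent.P261.H84.GrowthIff
import Vale.Agent.P261.H84.SmallP
import Vale.Agent.P261.H84.StK
import Vale.Agent.P251.St.Result2

/-!
# P261 (helper84): the definitions of `StG.lean`, `StK.lean` and those of `P221/St/Mc.lean`
-/

open CategoryTheory MonoidalCategory

namespace Vale.Agent.P261.H84

open Vale.Agent.P251.St Vale.Agent.P251.St.SHCat Vale.Agent.P257.St
open Vale.Agent.P221

variable {T : SHCat} {S : Susp T} {p n : ℕ}

theorem fg_iff [Fact p.Prime] {A : Type} [AddCommGroup A] :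
    StK.FG p A ↔ Vale.Agent.P261.H273.FG p A := Iff.rfl

theorem thick_iff {B X : T.C} : StK.Thick B X ↔ StM.ThickOf (fun Y : T.C => Y = B) X := by
  constructor
  · intro h
    induction h with
    | base => exact .base rfl
    | zero h => exact .zero h
    | susp k _ ih => exact .susp k ih
    | cof h _ _ ih₁ ih₂ => exact .cof h ih₁ ih₂
    | retract i r h _ ih => exact .retract i r h ih
  · intro h
    induction h with
    | base h => subst h; exact .base
    | zero h => exact .zero h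
    | susp k _ ih => exact .susp k ih
    | cof h _ _ ih₁ ih₂ => exact .cof h ih₁ ih₂
    | retract i r h _ ih => exact .retract i r h ih

theorem standard_conv {B : T.C} (h : StK.IsStandardForm S p n B) :
    StM.IsStandardForm S p n B := by
  obtain ⟨P, o, φ, x, C, a, q, c, h1, h2, h3, h4⟩ := h
  exact ⟨P, o, φ, x, C, a, q, c, h1, h2, ⟨h3.act, h3.map, h3.surj, h3.ker⟩, h4⟩

section

variable [hp : Fact p.Prime] (hn : 1 ≤ n) (hs : n ^ 2 + max n 2 ≤ 2 * (p - 1))
  {K : RingSp T} (hK : IsMorava S K p n) {Z : T.C} {z : Hom T.one Z} (hz : IsLoc K.obj z)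

include hn hs hK hz

theorem fg_of_thickK {B : T.C} (hB : StK.IsStandardForm S p n B)
    (h : ∃ (X : T.C) (c : Hom X Z), StK.Thick B X ∧ StK.EvIso c) (t : ℤ) :
    StK.FG p (Hom (sphere T t) Z) := by
  obtain ⟨X, c, h1, h2⟩ := h
  exact fg_of_thick_loc hn hs hK hz (standard_conv hB) ⟨X, c, thick_iff.1 h1, h2⟩ t

theorem thickK_of_fg {B : T.C} (hB : StK.IsStandardForm S p n B) (h4 : n ≤ 4)
    (hfg : ∀ t, StK.FG p (Hom (sphere T t) Z)) :
    ∃ (X : T.C) (c : Hom X Z), StK.Thick B X ∧ StK.EvIso c := by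
  have h0 : 2 ≤ max n 2 := le_max_right _ _
  obtain ⟨X, c, h1, h2⟩ := thick_of_fg hn hs hK hz (standard_conv hB)
    (hasMoore_of_sq hn h4 (by omega)) hfg
  exact ⟨X, c, thick_iff.2 h1, h2⟩

end

theorem ne_two_of_range (hn : 1 ≤ n) (hs : n ^ 2 + max n 2 ≤ 2 * (p - 1)) : p ≠ 2 := by
  rintro rfl
  have h1 : 1 ≤ n ^ 2 := Nat.one_le_pow _ _ hn
  have h2 : 2 ≤ max n 2 := le_max_right _ _
  omega

/-- Morava K-theories exist at odd primes. -/
theorem exists_morava_of_ne_two [Fact p.Prime] (S : Susp T) (h2 : p ≠ 2) (n : ℕ) :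
    ∃ K : RingSp T, IsMorava S K p n := by
  have := CategoryTheory.locallySmall_self.{0} T.C
  obtain ⟨K, h⟩ := exists_morava p (Fact.out : p.Prime).ne_zero T S fun m =>
    Vale.Agent.P251.X.exists_isMorava S.toSpaceFunctor h2 m
  exact ⟨K n, h n⟩

end Vale.Agent.P261.H84
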