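import Vale.Agent.P261.H84.Local

/-!
# P261 (helper84): growth of the homotopy groups of `K(n)`-local objects

* `card_le_of_exact` : orders of groups in exact sequences;
* `step_bound` : the recursion;
* `Gr e W` : `π_t W` has at most `p ^ (C (1 + |t|) ^ e)` elements;
* `gr_genMoore` : from `Y ⊗ V`, `V` of type `j`, to `Y ⊗ S/p`;
* `gr_local` : `K`-local objects of finite type.
-/

open CategoryTheory MonoidalCategory MonObj Limits Pretriangulated Filter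

set_option linter.unusedSectionVars false

noncomputable section

namespace Vale.Agent.P261.H84

section grp

variable {G₁ G₂ G₃ : Type*} [AddCommGroup G₁] [AddCommGroup G₂] [AddCommGroup G₃]

/-- orders in exact sequences -/
theorem card_le_of_exact (f : G₁ →+ G₂) (g : G₂ →+ G₃) (h : ∀ y, g y = 0 → ∃ x, f x = y)
    [Finite G₁] [Finite G₃] : Finite G₂ ∧ Nat.card G₂ ≤ Nat.card G₁ * Nat.card G₃ := by
  have h3 : ∀ x : g.ker, ∃ y, f y = x := fun x => h x.1 x.2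
  choose y hy using h3
  have hinj : Function.Injective y := fun a b hab =>
    Subtype.ext ((hy a).symm.trans (by rw [hab, hy]))
  have hker : Finite g.ker := Finite.of_injective y hinj
  have hran : Finite g.range := inferInstance
  have e : G₂ ≃ (G₂ ⧸ g.ker) × g.ker := AddSubgroup.addGroupEquivQuotientProdAddSubgroup
  have e' : (G₂ ⧸ g.ker) ≃ g.range := (QuotientAddGroup.quotientKerEquivRange g).toEquiv
  refine ⟨Finite.of_equiv _ (e.trans (Equiv.prodCongr e' (Equiv.refl _))).symm, ?_⟩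
  rw [Nat.card_congr (e.trans (Equiv.prodCongr e' (Equiv.refl _))), Nat.card_prod, mul_comm]
  exact Nat.mul_le_mul (Nat.card_le_card_of_injective y hinj)
    (Nat.card_le_card_of_injective (fun x : g.range => (x : G₃)) Subtype.val_injective)

end grp

/-- **the recursion** -/
theorem step_bound {p : ℕ} (hp : 1 ≤ p) {a b : ℤ → ℕ} {d : ℕ} (hd : 0 < d) {M C e : ℕ}
    (h1 : ∀ t : ℤ, a t ≤ a (t - d) * b t) (h2 : ∀ t : ℤ, a (t - d) ≤ b (t + 1) * a t)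
    (h0 : ∀ t : ℤ, 0 ≤ t → t < d → a t ≤ p ^ M)
    (hb : ∀ t : ℤ, b t ≤ p ^ (C * (1 + t.natAbs) ^ e)) (m : ℕ) :
    ∀ t : ℤ, t.natAbs ≤ m → a t ≤ p ^ (M + m * (C * (2 + d) ^ e * (1 + m) ^ e)) := by
  have key : ∀ (m : ℕ) (s : ℤ), s.natAbs ≤ m + d + 1 →
      b s ≤ p ^ (C * (2 + d) ^ e * (1 + m) ^ e) := by
    intro m s hs
    refine (hb s).trans (Nat.pow_le_pow_right hp ?_)
    rw [_root_.mul_assoc, ← mul_pow]
    refine Nat.mul_le_mul_left C (Nat.pow_le_pow_left ?_ e)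
    nlinarith
  have mono : ∀ m : ℕ, C * (2 + d) ^ e * (1 + m) ^ e ≤ C * (2 + d) ^ e * (1 + (m + 1)) ^ e :=
    fun m => Nat.mul_le_mul_left _ (Nat.pow_le_pow_left (by omega) e)
  have hM : ∀ (m : ℕ) (t : ℤ), 0 ≤ t → t < d →
      a t ≤ p ^ (M + m * (C * (2 + d) ^ e * (1 + m) ^ e)) := fun m t h h' =>
    (h0 t h h').trans (Nat.pow_le_pow_right hp (Nat.le_add_right _ _))
  have hstep : ∀ (m x y : ℕ), x ≤ p ^ (M + m * (C * (2 + d) ^ e * (1 + m) ^ e)) →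
      y ≤ p ^ (C * (2 + d) ^ e * (1 + (m + 1)) ^ e) →
      x * y ≤ p ^ (M + (m + 1) * (C * (2 + d) ^ e * (1 + (m + 1)) ^ e)) := by
    intro m x y hx hy
    refine (Nat.mul_le_mul hx hy).trans ?_
    rw [← pow_add]
    refine Nat.pow_le_pow_right hp ?_
    have h3 := Nat.mul_le_mul_left m (mono m)
    nlinarith
  induction m with
  | zero =>
    intro t ht
    exact hM 0 t (by omega) (by omega)
  | succ m ih =>
    intro t ht
    by_cases hc : 0 ≤ t ∧ t < d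
    · exact hM _ t hc.1 hc.2
    · rcases lt_or_ge t 0 with hneg | hpos
      · have h3 := h2 (t + d)
        rw [add_sub_cancel_right] at h3
        refine h3.trans ?_
        rw [mul_comm]
        refine hstep m _ _ ?_ (key (m + 1) _ (by omega))
        rcases lt_or_ge (t + d) 0 with h4 | h4
        · exact ih _ (by omega)
        · exact hM _ _ h4 (by omega)
      · have h3 : (d : ℤ) ≤ t := by
          by_contra h4
          exact hc ⟨hpos, by omega⟩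
        exact (h1 t).trans (hstep m _ _ (ih _ (by omega)) (key (m + 1) _ (by omega)))

open Vale.Agent.P251 Vale.Agent.P251.S Vale.Agent.P251.T Vale.Agent.P251.M
  Vale.Agent.P251.St Vale.Agent.P251.St.SHCat Vale.Agent.P257.St
open Vale.Agent.P221 (H246.tensSIso H246.thick_genMoore H626.finDeg_ten)
open Vale.Agent.P221.H395.Fp (selfMap selfMap_dist degree_eq)
open Vale.Agent.P221.St (IsGenMoore)
open Vale.Agent.P221.Loc (FinDeg nonempty_homShift)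
open Vale.Agent.P261.H273 (FG DComp FinMod dcomp_of_isLocal finMod_of_tri finite_of_tri)

variable {T : SHCat} {S : Susp T} {p n : ℕ}

/-- at most polynomial growth -/
def Gr (p e : ℕ) (W : T.C) : Prop := ∃ C : ℕ, ∀ t : ℤ, Finite ((𝟙_ T.C)⟦t⟧ ⟶ W) ∧
  Nat.card ((𝟙_ T.C)⟦t⟧ ⟶ W) ≤ p ^ (C * (1 + t.natAbs) ^ e)

theorem card_mid {A B D W : T.C} {f : A ⟶ B} {g : B ⟶ D} {h : D ⟶ A⟦(1 : ℤ)⟧}
    (hT : Triangle.mk f g h ∈ distTriang T.C) (hA : Finite (W ⟶ A)) (hD : Finite (W ⟶ D)) :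
    Nat.card (W ⟶ B) ≤ Nat.card (W ⟶ A) * Nat.card (W ⟶ D) :=
  (card_le_of_exact (Preadditive.rightComp W f) (Preadditive.rightComp W g) fun y hy => by
    obtain ⟨x, hx⟩ := Triangle.coyoneda_exact₂ _ hT y hy
    exact ⟨x, hx.symm⟩).2

/-- the cofibre of a self map of positive degree -/
theorem bound_self (hp : 2 ≤ p) {A B : T.C} {d : ℕ} {δ : ℤ} (hδ : δ = d) (hd : 0 < d)
    {f : A⟦δ⟧ ⟶ A} {g : A ⟶ B} {h : B ⟶ (A⟦δ⟧)⟦(1 : ℤ)⟧}
    (hT : Triangle.mk f g h ∈ distTriang T.C) (hA : FinDeg A) {C e : ℕ}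
    (hB : ∀ t : ℤ, Finite ((𝟙_ T.C)⟦t⟧ ⟶ B) ∧
      Nat.card ((𝟙_ T.C)⟦t⟧ ⟶ B) ≤ p ^ (C * (1 + t.natAbs) ^ e)) :
    ∃ M : ℕ, ∀ (m : ℕ) (t : ℤ), t.natAbs ≤ m →
      Nat.card ((𝟙_ T.C)⟦t⟧ ⟶ A) ≤ p ^ (M + m * (C * (2 + d) ^ e * (1 + m) ^ e)) := by
  subst hδ
  let a : ℤ → ℕ := fun t => Nat.card ((𝟙_ T.C)⟦t⟧ ⟶ A)
  let b : ℤ → ℕ := fun t => Nat.card ((𝟙_ T.C)⟦t⟧ ⟶ B)
  have hA' : FinDeg (A⟦(d : ℤ)⟧) := hA.shift d
  have hsh : ∀ t : ℤ, Nat.card ((𝟙_ T.C)⟦t⟧ ⟶ A⟦(d : ℤ)⟧) = a (t - d) := fun t => by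
    obtain ⟨e⟩ := nonempty_homShift A t d
    exact Nat.card_congr e.toEquiv
  have hB' : FinDeg (B⟦(-1 : ℤ)⟧) := FinDeg.shift (fun t => (hB t).1) (-1)
  have hshB : ∀ t : ℤ, Nat.card ((𝟙_ T.C)⟦t⟧ ⟶ B⟦(-1 : ℤ)⟧) = b (t + 1) := fun t => by
    obtain ⟨e⟩ := nonempty_homShift B t (-1)
    have h1 := Nat.card_congr e.toEquiv
    rwa [sub_neg_eq_add] at h1
  refine ⟨∑ i ∈ Finset.range d, a i, fun m t ht => step_bound (by omega) (a := a) (b := b) hd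
    (fun t => ?_) (fun t => ?_) (fun t h0 h1 => ?_) (fun t => (hB t).2) m t ht⟩
  · have h1 := card_mid hT (hA' t) (hB t).1
    rwa [hsh] at h1
  · have h1 := card_mid (inv_rot_of_distTriang _ hT) (hB' t) (hA t)
    change Nat.card ((𝟙_ T.C)⟦t⟧ ⟶ A⟦(d : ℤ)⟧) ≤
      Nat.card ((𝟙_ T.C)⟦t⟧ ⟶ B⟦(-1 : ℤ)⟧) * Nat.card ((𝟙_ T.C)⟦t⟧ ⟶ A) at h1
    rwa [hsh, hshB] at h1
  · obtain ⟨k, rfl⟩ := Int.eq_ofNat_of_zero_le h0
    have h2 : a k ≤ ∑ i ∈ Finset.range d, a i :=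
      Finset.single_le_sum (f := fun i : ℕ => a i) (fun _ _ => Nat.zero_le _)
        (Finset.mem_range.2 (by exact_mod_cast h1))
    exact h2.trans (Nat.lt_pow_self (by omega)).le

theorem gr_succ (hp : 2 ≤ p) {A B : T.C} {d : ℕ} {δ : ℤ} (hδ : δ = d) (hd : 0 < d)
    {f : A⟦δ⟧ ⟶ A} {g : A ⟶ B} {h : B ⟶ (A⟦δ⟧)⟦(1 : ℤ)⟧}
    (hT : Triangle.mk f g h ∈ distTriang T.C) (hA : FinDeg A) {e : ℕ} (hB : Gr p e B) :
    Gr p (e + 1) A := by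
  obtain ⟨C, hC⟩ := hB
  obtain ⟨M, hM⟩ := bound_self hp hδ hd hT hA hC
  refine ⟨M + C * (2 + d) ^ e, fun t => ⟨hA t, (hM _ t le_rfl).trans
    (Nat.pow_le_pow_right (by omega) ?_)⟩⟩
  generalize t.natAbs = m
  have h1 : 1 ≤ (1 + m) ^ (e + 1) := Nat.one_le_pow _ _ (by omega)
  have h2 : (1 + m) ^ (e + 1) = (1 + m) ^ e * (1 + m) := pow_succ _ _
  have h3 : m * (C * (2 + d) ^ e * (1 + m) ^ e) ≤ C * (2 + d) ^ e * (1 + m) ^ (e + 1) := by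
    rw [h2]
    calc m * (C * (2 + d) ^ e * (1 + m) ^ e) ≤ (1 + m) * (C * (2 + d) ^ e * (1 + m) ^ e) :=
          Nat.mul_le_mul_right _ (by omega)
      _ = _ := by ring
  calc M + m * (C * (2 + d) ^ e * (1 + m) ^ e)
      ≤ M * (1 + m) ^ (e + 1) + C * (2 + d) ^ e * (1 + m) ^ (e + 1) :=
        Nat.add_le_add (Nat.le_mul_of_pos_right _ h1) h3
    _ = _ := by ring

theorem gr_zero (hp : 2 ≤ p) {A B : T.C} {d : ℕ} {δ : ℤ} (hδ : δ = d) (hd : 0 < d)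
    {f : A⟦δ⟧ ⟶ A} {g : A ⟶ B} {h : B ⟶ (A⟦δ⟧)⟦(1 : ℤ)⟧}
    (hT : Triangle.mk f g h ∈ distTriang T.C) (hA : FinDeg A) (hB : IsZero B) :
    Gr p 0 A := by
  have hB' : ∀ t : ℤ, Finite ((𝟙_ T.C)⟦t⟧ ⟶ B) ∧
      Nat.card ((𝟙_ T.C)⟦t⟧ ⟶ B) ≤ p ^ (0 * (1 + t.natAbs) ^ 0) := fun t => by
    have h1 : Subsingleton ((𝟙_ T.C)⟦t⟧ ⟶ B) := ⟨fun a b => hB.eq_of_tgt a b⟩
    refine ⟨inferInstance, ?_⟩
    rw [zero_mul, pow_zero]
    exact Finite.card_le_one_iff_subsingleton.2 h1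
  obtain ⟨M, hM⟩ := bound_self hp hδ hd hT hA hB'
  refine ⟨M, fun t => ⟨hA t, (hM _ t le_rfl).trans (Nat.pow_le_pow_right (by omega) ?_)⟩⟩
  simp

/-- the triangle of a self map -/
theorem self_tri (N : T.C) {k : ℕ} {V W : T.C} {f : Hom (ten (S.obj (Cn k)) V) V} {g : Hom V W}
    {h : Hom W (sus (ten (S.obj (Cn k)) V))} (hT : Dist f g h) :
    ∃ (F : (N ⊗ V)⟦(2 * (k : ℤ) : ℤ)⟧ ⟶ N ⊗ V)
      (h' : N ⊗ W ⟶ ((N ⊗ V)⟦(2 * (k : ℤ) : ℤ)⟧)⟦(1 : ℤ)⟧),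
      Triangle.mk F (N ◁ g) h' ∈ distTriang T.C := by
  obtain ⟨h', hT'⟩ := selfMap_dist hT
  have hT2 : Triangle.mk (N ◁ selfMap f) (N ◁ g)
      (N ◁ h' ≫ ((tensorLeft N).commShiftIso (1 : ℤ)).hom.app (V ⊗ (stdEven T.C).S k)) ∈
      distTriang T.C := dist_whiskerLeft N hT'
  let e := H246.tensSIso N V k
  refine ⟨e.inv ≫ (N ◁ selfMap f),
    (N ◁ h' ≫ ((tensorLeft N).commShiftIso (1 : ℤ)).hom.app _) ≫ e.hom⟦(1 : ℤ)⟧', ?_⟩
  refine isomorphic_distinguished _ hT2 _ (Triangle.isoMk _ _ e.symm (Iso.refl _) (Iso.refl _)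
    ?_ ?_ ?_)
  · exact Category.comp_id _
  · exact (Category.comp_id _).trans (Category.id_comp _).symm
  · refine Eq.trans ?_ (Category.id_comp _).symm
    change ((N ◁ h' ≫ ((tensorLeft N).commShiftIso (1 : ℤ)).hom.app _) ≫ e.hom⟦(1 : ℤ)⟧') ≫
      e.inv⟦(1 : ℤ)⟧' =
      N ◁ h' ≫ ((tensorLeft N).commShiftIso (1 : ℤ)).hom.app (V ⊗ (stdEven T.C).S k)
    have h1 : e.hom⟦(1 : ℤ)⟧' ≫ e.inv⟦(1 : ℤ)⟧' = 𝟙 _ := by
      rw [← Functor.map_comp, Iso.hom_inv_id, CategoryTheory.Functor.map_id]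
    exact (Category.assoc _ _ _).trans ((congrArg _ h1).trans (Category.comp_id _))

section C

variable {C : T.C} {i : 𝟙_ T.C ⟶ C} {δ : C ⟶ (𝟙_ T.C)⟦(1 : ℤ)⟧}
  (hC : Triangle.mk ((p : ℤ) • 𝟙 (𝟙_ T.C)) i δ ∈ distTriang T.C)
include hC

/-- from `S / p ^ m` to `S / p` -/
theorem gr_base {m : ℕ} (hm : 0 < m) {V : T.C} {g : 𝟙_ T.C ⟶ V} {h : V ⟶ (𝟙_ T.C)⟦(1 : ℤ)⟧}
    (hV : Triangle.mk (((p : ℤ) ^ m) • 𝟙 (𝟙_ T.C)) g h ∈ distTriang T.C) {X : T.C} {e : ℕ}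
    (hX : Gr p e (X ⊗ V)) : Gr p e (X ⊗ C) := by
  obtain ⟨c, hc⟩ := hX
  refine ⟨2 * c, fun k => ?_⟩
  have hk := (hc k).1
  have hCX := redTri_distinguished hC X
  have hVX := redTri_distinguished hV X
  let FC : ((𝟙_ T.C)⟦k⟧ ⟶ X) →+ ((𝟙_ T.C)⟦k⟧ ⟶ X ⊗ C) :=
    Preadditive.rightComp ((𝟙_ T.C)⟦k⟧) ((redC i).app X)
  let FV : ((𝟙_ T.C)⟦k⟧ ⟶ X) →+ ((𝟙_ T.C)⟦k⟧ ⟶ X ⊗ V) :=
    Preadditive.rightComp ((𝟙_ T.C)⟦k⟧) ((redC g).app X)
  have h1 : FV.ker ≤ FC.ker := by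
    intro x hx
    obtain ⟨y, hy⟩ := exists_zsmul_of_red hV x hx
    obtain ⟨m', rfl⟩ : ∃ m', m = m' + 1 := ⟨m - 1, by omega⟩
    have h2 : x = (p : ℤ) • (((p : ℤ) ^ m') • y) := by
      rw [← mul_smul, ← hy, pow_succ, mul_comm]
    change x ≫ (redC i).app X = 0
    rw [h2]
    exact zsmul_comp_red hC _
  have hs : ∀ z : FC.range, ∃ x, FC x = z := fun z => z.2
  choose s hs using hs
  have h2 : Function.Injective fun z => FV (s z) := fun a b hab => Subtype.ext (by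
    rw [← hs a, ← hs b, ← sub_eq_zero, ← map_sub]
    refine h1 ?_
    rw [AddMonoidHom.mem_ker, map_sub, sub_eq_zero]
    exact hab)
  have h2' : Finite FC.range := Finite.of_injective _ h2
  let BC : ((𝟙_ T.C)⟦k⟧ ⟶ X ⊗ C) →+ ((𝟙_ T.C)⟦k⟧ ⟶ X⟦(1 : ℤ)⟧) :=
    Preadditive.rightComp ((𝟙_ T.C)⟦k⟧) (bdC δ X)
  let BV : ((𝟙_ T.C)⟦k⟧ ⟶ X ⊗ V) →+ ((𝟙_ T.C)⟦k⟧ ⟶ X⟦(1 : ℤ)⟧) :=
    Preadditive.rightComp ((𝟙_ T.C)⟦k⟧) (bdC h X)
  have h3 : BC.range ≤ BV.range := by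
    rintro _ ⟨y, rfl⟩
    have h4 : (y ≫ bdC δ X) ≫ ((((p : ℤ) ^ m) • 𝟙 X)⟦(1 : ℤ)⟧') = 0 := by
      rw [Functor.map_zsmul, CategoryTheory.Functor.map_id, Preadditive.comp_zsmul,
        Category.comp_id]
      obtain ⟨m', rfl⟩ : ∃ m', m = m' + 1 := ⟨m - 1, by omega⟩
      rw [pow_succ, mul_smul, ← Preadditive.comp_zsmul, bdC_zsmul hC, comp_zero, smul_zero]
    obtain ⟨z, hz⟩ : ∃ z : (𝟙_ T.C)⟦k⟧ ⟶ X ⊗ V, y ≫ bdC δ X = z ≫ bdC h X :=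
      Triangle.coyoneda_exact₁ _ hVX _ h4
    exact ⟨z, hz.symm⟩
  have hBV : Finite BV.range := Finite.of_surjective BV.rangeRestrict BV.rangeRestrict_surjective
  have h5 : Finite BC.range := Finite.of_injective (AddSubgroup.inclusion h3)
    (AddSubgroup.inclusion_injective h3)
  obtain ⟨h6, h7⟩ := card_le_of_exact FC.range.subtype BC.rangeRestrict fun y hy => by
    have h6 : y ≫ bdC δ X = 0 := congrArg Subtype.val hy
    obtain ⟨x, hx⟩ : ∃ x : (𝟙_ T.C)⟦k⟧ ⟶ X, y = x ≫ (redC i).app X :=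
      Triangle.coyoneda_exact₃ _ hCX y h6
    exact ⟨⟨y, ⟨x, hx.symm⟩⟩, rfl⟩
  refine ⟨h6, h7.trans ?_⟩
  have h8 : Nat.card FC.range ≤ Nat.card ((𝟙_ T.C)⟦k⟧ ⟶ X ⊗ V) :=
    Nat.card_le_card_of_injective _ h2
  have h9 : Nat.card BC.range ≤ Nat.card ((𝟙_ T.C)⟦k⟧ ⟶ X ⊗ V) :=
    (Nat.card_le_card_of_injective _ (AddSubgroup.inclusion_injective h3)).trans
      (Nat.card_le_card_of_surjective BV.rangeRestrict BV.rangeRestrict_surjective)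
  refine (Nat.mul_le_mul (h8.trans (hc k).2) (h9.trans (hc k).2)).trans (le_of_eq ?_)
  rw [← pow_add]
  congr 1
  ring

/-- **from type `j` to type `1`** -/
theorem gr_genMoore (hp : p.Prime) {P : RingSp T} {φ : GHom S p P} {j : ℕ} {V : T.C}
    (hV : IsGenMoore φ j V) {Y : T.C} (hY : FinDeg (Y ⊗ C)) :
    1 ≤ j ∧ ∀ e : ℕ, Gr p e (Y ⊗ V) → Gr p (e + (j - 1)) (Y ⊗ C) := by
  induction hV with
  | @base m V g h hm hT => exact ⟨le_rfl, fun e h => gr_base hC hm hT h⟩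
  | @step j k m V W f g h w hV hm hw hf hT ih =>
    obtain ⟨hj, ih⟩ := ih
    refine ⟨by omega, fun e hW => ?_⟩
    obtain ⟨F, h', hT'⟩ := self_tri Y hT
    have hk := degree_eq hp w hw
    have hpj : 1 < p ^ j := Nat.one_lt_pow (by omega) hp.one_lt
    have h1 : 0 < k := by
      rw [hk]
      exact Nat.mul_pos hm (by omega)
    have h2 := ih (e + 1) (gr_succ hp.two_le (d := 2 * k) (by push_cast; ring) (by omega) hT'
      (H626.finDeg_ten hY (H246.thick_genMoore hC hV)) hW)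
    rwa [show e + 1 + (j - 1) = e + (j + 1 - 1) by omega] at h2

/-- **growth of local objects of finite type** -/
theorem gr_local [hp : Fact p.Prime] (hn : 1 ≤ n) {P : RingSp T} {φ : GHom S p P} {V : T.C}
    (hV : IsGenMoore φ (n + 1) V) {Y : T.C} (hYV : IsZero (Y ⊗ V)) (hY : FinDeg (Y ⊗ C)) :
    Gr p (n - 1) (Y ⊗ C) := by
  obtain ⟨m, hm⟩ : ∃ m, m = n + 1 := ⟨_, rfl⟩
  rw [← hm] at hV
  cases hV with
  | base hi hT => omega
  | @step j k i V' W f q h w hV' hi hw hf hT =>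
    obtain rfl : j = n := by omega
    obtain ⟨F, h', hT'⟩ := self_tri Y hT
    have hk := degree_eq hp.out w hw
    have hpj : 1 < p ^ j := Nat.one_lt_pow (by omega) hp.out.one_lt
    have h1 : 0 < k := by
      rw [hk]
      exact Nat.mul_pos hi (by omega)
    have h2 := (gr_genMoore hC hp.out hV' hY).2 0 (gr_zero hp.out.two_le (d := 2 * k)
      (by push_cast; ring) (by omega) hT' (H626.finDeg_ten hY (H246.thick_genMoore hC hV')) hYV)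
    rwa [zero_add] at h2

end C

end Vale.Agent.P261.H84
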