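import Vale.Agent.P261.H84.Main
import Vale.Agent.P261.H84.Growth

/-!
# P261 (helper84): finite type and growth of the homotopy groups of `Y ⊗ S/p`
-/

open CategoryTheory MonoidalCategory MonObj Limits Pretriangulated Filter

set_option linter.unusedSectionVars false

noncomputable section

namespace Vale.Agent.P261.H84

open Vale.Agent.P251 Vale.Agent.P251.S Vale.Agent.P251.T Vale.Agent.P251.M Vale.Agent.P251.F
  Vale.Agent.P251.I EvenSpheres Vale.Agent.P257.H702 Vale.Agent.P257.H80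
  Vale.Agent.P251.St Vale.Agent.P251.St.SHCat Vale.Agent.P257.St Vale.Agent.P257.H762
open Vale.Agent.P221
open Vale.Agent.P221.St (IsGenMoore)
open Vale.Agent.P221.Loc (IsCov exists_cov Good FinDeg)
open Vale.Agent.P261.H273 (FG DComp FinMod dcomp_of_isLocal finMod_of_tri finite_of_tri)
open Vale.Agent.P261.StT (HasMoore Growth)

variable {T : SHCat} {S : Susp T} {p n : ℕ}

section

variable {C : T.C} {i : 𝟙_ T.C ⟶ C} {δ : C ⟶ (𝟙_ T.C)⟦(1 : ℤ)⟧}
  (hC : Triangle.mk ((p : ℤ) • 𝟙 (𝟙_ T.C)) i δ ∈ distTriang T.C)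
include hC

/-- `K`-local objects: finite type and finiteness with coefficients in `S / p` -/
theorem fg_iff_finDeg [hp : Fact p.Prime] (hn : 1 ≤ n) {K : RingSp T} (hK : IsMorava S K p n)
    {Y : T.C} (hY : StT.IsLocal K.obj Y) :
    (∀ t, FG p (StM.Pi t Y)) ↔ FinDeg (Y ⊗ C) := by
  constructor
  · intro h t
    obtain ⟨e⟩ := Vale.Agent.P221.Loc.nonempty_homShift Y t 1
    have h2 : FG p ((𝟙_ T.C)⟦t⟧ ⟶ Y⟦(1 : ℤ)⟧) := (h (t - 1)).congr e.symm
    exact finite_of_tri (redTri_distinguished hC Y) _ (h t).finMod h2.finite_torsion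
  · intro h t
    have hpc := pComplete_of_local (zsmul_id_morava hn hK) ((local_iff _ _).1 hY)
    have h1 : DComp p ((𝟙_ T.C)⟦t⟧ ⟶ Y) :=
      dcomp_of_isLocal (local_of_pComplete hC hpc) (m := 2) (sq_zero hC) _
    have h2 : Finite ((𝟙_ T.C)⟦t⟧ ⟶ (tensorRight C).obj Y) := h t
    exact h1.fg (finMod_of_tri (redTri_distinguished hC Y) _)

end

/-- **finite type and growth** -/
theorem growth_of_fg [hp : Fact p.Prime] (hn : 1 ≤ n) {K : RingSp T} (hK : IsMorava S K p n)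
    {Y : T.C} (hY : StT.IsLocal K.obj Y) (hM : HasMoore S p n) {M : T.C} {a : Hom T.one M}
    {b : Hom M (sus T.one)} (hab : Dist (zmul p (ident T.one)) a b)
    (h : ∀ t, FG p (StM.Pi t Y)) : Growth p (n - 1) (ten Y M) := by
  obtain ⟨P, o, φ, V, hφ, hV⟩ := hM
  have hV' := isGenMoore_of_M hV
  obtain ⟨c, hc⟩ := gr_local (C := M) (i := a) (δ := b) hab hn hV'
    (isZero_local hn hK ((local_iff _ _).1 hY) hφ hV') ((fg_iff_finDeg hab hn hK hY).1 h)
  exact ⟨c, hc⟩

theorem fg_of_growth [hp : Fact p.Prime] (hn : 1 ≤ n) {K : RingSp T} (hK : IsMorava S K p n)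
    {Y : T.C} (hY : StT.IsLocal K.obj Y) {M : T.C} {a : Hom T.one M}
    {b : Hom M (sus T.one)} (hab : Dist (zmul p (ident T.one)) a b) {d : ℕ}
    (h : Growth p d (ten Y M)) (t : ℤ) : FG p (StM.Pi t Y) := by
  obtain ⟨c, hc⟩ := h
  exact (fg_iff_finDeg hab hn hK hY).2 (fun t => (hc t).1) t

end Vale.Agent.P261.H84
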