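import Vale.Agent.P261.H84.Vanish
import Vale.Agent.P261.H273.Assembly2
import Vale.Agent.P221.H626.FinV
import Vale.Agent.P221.H84.Step

/-!
# P261 (helper84): connective covers of `K(n)`-local objects

* `closed_genMoore` : classes closed under triangles contain `Y ⊗ V` with `Y`;
* `isZero_local` : `Y ⊗ V = 0` for `K`-local `Y`, `V` of type `n + 1`;
* `good_cov` : the cover of a local object with finitely generated homotopy in high degrees is good;
* `tf_cov` : `π_* (X ⊗ V)` is totally finite for this cover `X`;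
* `fg_of_good` : good objects have finitely generated homotopy.
-/

open CategoryTheory MonoidalCategory MonObj Limits Pretriangulated Filter

set_option linter.unusedSectionVars false

noncomputable section

namespace Vale.Agent.P261.H84

open Vale.Agent.P251 Vale.Agent.P251.S Vale.Agent.P251.T Vale.Agent.P251.M Vale.Agent.P251.F
  Vale.Agent.P251.I EvenSpheres Vale.Agent.P257.H702 Vale.Agent.P257.H80
  Vale.Agent.P251.St Vale.Agent.P251.St.SHCat Vale.Agent.P257.St Vale.Agent.P257.H762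
open Vale.Agent.P221 (H246.tensSIso H395.PComplete H626.finite_ten_genMoore)
open Vale.Agent.P221.H395.Fp (selfMap selfMap_dist main_ind)
open Vale.Agent.P221.St (IsGenMoore)
open Vale.Agent.P221.Loc (IsCov exists_cov Good FinDeg)
open Vale.Agent.P221.H84 (Bd)
open Vale.Agent.P261.H273 (FG DComp FinMod dcomp_of_isLocal finMod_of_tri finite_of_tri)

variable {T : SHCat} {S : Susp T} {p n : ℕ}

/-- classes of objects which are closed under triangles -/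
theorem closed_genMoore {Q : T.C → Prop} (hiso : ∀ {X Y : T.C}, (X ≅ Y) → Q X → Q Y)
    (hsh : ∀ {X : T.C} (m : ℤ), Q X → Q (X⟦m⟧))
    (hext : ∀ {X Y Z : T.C} {f : X ⟶ Y} {g : Y ⟶ Z} {h : Z ⟶ X⟦(1 : ℤ)⟧},
      Triangle.mk f g h ∈ distTriang T.C → Q X → Q Y → Q Z)
    {P : RingSp T} {φ : GHom S p P} {j : ℕ} {V : T.C} (hV : IsGenMoore φ j V) {Y : T.C}
    (hY : Q Y) : Q (Y ⊗ V) := by
  induction hV with
  | @base m V g h hm hT =>
    exact hext (dist_whiskerLeft Y hT) (hiso (ρ_ Y).symm hY) (hiso (ρ_ Y).symm hY)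
  | @step j k m V W f g h w hV hm hw hf hT ih =>
    obtain ⟨h', hT'⟩ := selfMap_dist hT
    exact hext (dist_whiskerLeft Y hT') (hiso (H246.tensSIso Y V k).symm (hsh _ ih)) ih

/-- **`Y ⊗ V = 0`** -/
theorem isZero_local [hp : Fact p.Prime] (hn : 1 ≤ n) {K : RingSp T} (hK : IsMorava S K p n)
    {Y : T.C} (hY : P251.S.IsLocal K.obj Y)
    {P : RingSp T} {o : St.Oriented S P} {φ : GHom S p P} (hφ : IsBrownPeterson p o φ) {V : T.C}
    (hV : IsGenMoore φ (n + 1) V) : IsZero (Y ⊗ V) := by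
  have h1 : P251.S.IsLocal K.obj (Y ⊗ V) :=
    closed_genMoore (Q := fun X => P251.S.IsLocal K.obj X) (fun e h => h.of_iso e)
      (fun m h => h.shift m)
      (fun {X Y Z f g h} hT h1 h2 => IsLocal.ext₃ hT h1 h2) hV hY
  refine h1.isZero ?_
  have h2 := isZero_morava hn hK hφ hV
  exact IsZero.of_iso ((tensorLeft Y).map_isZero h2)
    ((α_ K.obj Y V).symm ≪≫ whiskerRightIso (β_ K.obj Y) V ≪≫ α_ Y K.obj V)

/-- objects on which `p` is invertible are `K`-acyclic, if `p ^ m = 0` on `K` -/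
theorem acyclic_of_isIso {K W : T.C} {m : ℕ} (hK : ((p : ℤ) ^ m) • 𝟙 K = 0)
    (hW : IsIso ((p : ℤ) • 𝟙 W)) : P251.S.Acyclic K W := by
  have h1 : ∀ j : ℕ, IsIso (((p : ℤ) ^ j) • 𝟙 W) := by
    intro j
    induction j with
    | zero => rw [pow_zero, one_smul]; infer_instance
    | succ j ih =>
      have h2 : ((p : ℤ) ^ (j + 1)) • 𝟙 W = (((p : ℤ) ^ j) • 𝟙 W) ≫ ((p : ℤ) • 𝟙 W) := by
        rw [Preadditive.zsmul_comp, Category.id_comp, smul_smul, pow_succ]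
      rw [h2]
      infer_instance
  have h2 := h1 m
  have h3 : IsIso (K ◁ (((p : ℤ) ^ m) • 𝟙 W)) := inferInstance
  have h4 : K ◁ (((p : ℤ) ^ m) • 𝟙 W) = (((p : ℤ) ^ m) • 𝟙 K) ▷ W := by
    have h5 : K ◁ (((p : ℤ) ^ m) • 𝟙 W) = ((p : ℤ) ^ m) • 𝟙 (K ⊗ W) :=
      ((tensorLeft K).map_zsmul).trans (congrArg _ (MonoidalCategory.whiskerLeft_id _ _))
    have h6 : (((p : ℤ) ^ m) • 𝟙 K) ▷ W = ((p : ℤ) ^ m) • 𝟙 (K ⊗ W) :=
      ((tensorRight W).map_zsmul).trans (congrArg _ (MonoidalCategory.id_whiskerRight _ _))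
    rw [h5, h6]
  rw [h4, hK, MonoidalPreadditive.zero_whiskerRight] at h3
  exact (IsZero.iff_id_eq_zero _).2 (by
    have h5 := IsIso.hom_inv_id (0 : K ⊗ W ⟶ K ⊗ W)
    rw [zero_comp] at h5
    exact h5.symm)

theorem pComplete_of_local {K Y : T.C} {m : ℕ} (hK : ((p : ℤ) ^ m) • 𝟙 K = 0)
    (hY : P251.S.IsLocal K Y) : H395.PComplete p Y := fun _ hW f =>
  hY (acyclic_of_isIso hK hW) f

section C

variable {C : T.C} {i : 𝟙_ T.C ⟶ C} {δ : C ⟶ (𝟙_ T.C)⟦(1 : ℤ)⟧}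
  (hC : Triangle.mk ((p : ℤ) • 𝟙 (𝟙_ T.C)) i δ ∈ distTriang T.C)
include hC

/-- `p ^ 2 = 0` on `S / p` -/
theorem sq_zero : ((p : ℤ) ^ 2) • 𝟙 C = 0 := by
  have h1 : (p : ℤ) • i = 0 := by
    have h2 : ((p : ℤ) • 𝟙 (𝟙_ T.C)) ≫ i = 0 := comp_distTriang_mor_zero₁₂ _ hC
    rwa [Preadditive.zsmul_comp, Category.id_comp] at h2
  have h3 : (p : ℤ) • δ = 0 := by
    have h2 : δ ≫ ((p : ℤ) • 𝟙 (𝟙_ T.C))⟦(1 : ℤ)⟧' = 0 := comp_distTriang_mor_zero₃₁ _ hC
    rwa [Functor.map_zsmul, CategoryTheory.Functor.map_id, Preadditive.comp_zsmul,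
      Category.comp_id] at h2
  obtain ⟨g, hg⟩ : ∃ g : (𝟙_ T.C)⟦(1 : ℤ)⟧ ⟶ C, (p : ℤ) • 𝟙 C = δ ≫ g :=
    Triangle.yoneda_exact₃ _ hC ((p : ℤ) • 𝟙 C) (by
      change i ≫ ((p : ℤ) • 𝟙 C) = 0
      rw [Preadditive.comp_zsmul, Category.comp_id, h1])
  rw [pow_two, mul_smul, hg, ← Preadditive.zsmul_comp, h3, zero_comp]

/-- `p`-complete objects are `S / p`-local -/
theorem local_of_pComplete {X : T.C} (hX : H395.PComplete p X) : P251.S.IsLocal C X := by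
  intro W hW f
  refine hX W ?_ f
  have hT : Triangle.mk ((p : ℤ) • 𝟙 W) ((redC i).app W) _ ∈ distTriang T.C :=
    redTri_distinguished hC W
  have h2 : IsZero ((tensorRight C).obj W) := IsZero.of_iso hW (β_ W C)
  exact (Triangle.isZero₃_iff_isIso₁ _ hT).1 h2

/-- **good objects have finitely generated homotopy groups** -/
theorem fg_of_good [hp : Fact p.Prime] {X : T.C} (hX : Good p C X) (t : ℤ) :
    FG p ((𝟙_ T.C)⟦t⟧ ⟶ X) := by
  have h1 : DComp p ((𝟙_ T.C)⟦t⟧ ⟶ X) :=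
    dcomp_of_isLocal (local_of_pComplete hC hX.pc) (m := 2) (sq_zero hC) _
  have h2 : Finite ((𝟙_ T.C)⟦t⟧ ⟶ (tensorRight C).obj X) := hX.fin t
  exact h1.fg (finMod_of_tri (redTri_distinguished hC X) _)

omit hC in
theorem fg_of_zero [hp : Fact p.Prime] {A : Type} [AddCommGroup A] (h : ∀ x : A, x = 0) :
    FG p A := by
  have : Subsingleton A := ⟨fun a b => (h a).trans (h b).symm⟩
  exact (FG.congr (A := PUnit.{1}) (B := A)
    { toFun := fun _ => 0, invFun := fun _ => PUnit.unit, left_inv := fun _ => rfl,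
      right_inv := fun a => (h a).symm, map_add' := fun _ _ => (add_zero _).symm }
    ⟨inferInstance, inferInstance⟩)

omit hC in
/-- the homotopy of the cover -/
theorem fg_cov [hp : Fact p.Prime] (h0 : Conn (0 : ℤ) (𝟙_ T.C)) {Y : T.C} {N : ℤ}
    (hfg : ∀ t ≥ N, FG p ((𝟙_ T.C)⟦t⟧ ⟶ Y)) {X : T.C} {c : X ⟶ Y} (hc : IsCov N c) (j : ℤ) :
    FG p ((𝟙_ T.C)⟦j⟧ ⟶ X) := by
  rcases lt_or_ge j N with h | h
  · exact fg_of_zero fun x => BigCell.conn' h0 hc.cell j h x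
  · let f : ((𝟙_ T.C)⟦j⟧ ⟶ X) →+ ((𝟙_ T.C)⟦j⟧ ⟶ Y) := Preadditive.rightComp ((𝟙_ T.C)⟦j⟧) c
    have hf : Function.Bijective f := hc.bij j h
    exact (hfg j h).congr (AddEquiv.ofBijective f hf).symm

/-- **the cover is good** -/
theorem good_cov [hp : Fact p.Prime] (h0 : Conn (0 : ℤ) (𝟙_ T.C)) {Y : T.C}
    (hY : H395.PComplete p Y) {N : ℤ} (hfg : ∀ t ≥ N, FG p ((𝟙_ T.C)⟦t⟧ ⟶ Y)) {X : T.C}
    {c : X ⟶ Y} (hc : IsCov N c) : Good p C X where
  pc := hc.pComplete hC h0 hY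
  fin j := by
    have h1 := fg_cov h0 hfg hc j
    obtain ⟨e⟩ := Vale.Agent.P221.Loc.nonempty_homShift X j 1
    have h2 : FG p ((𝟙_ T.C)⟦j⟧ ⟶ X⟦(1 : ℤ)⟧) := (fg_cov h0 hfg hc (j - 1)).congr e.symm
    exact finite_of_tri (redTri_distinguished hC X) _ h1.finMod h2.finite_torsion
  bb := ⟨N, BigCell.conn' h0 hc.cell⟩

/-- **`π_* (X ⊗ V)` is totally finite** for the cover `X` of a local object -/
theorem tf_cov [hp : Fact p.Prime] (h0 : Conn (0 : ℤ) (𝟙_ T.C)) {Y : T.C} {N : ℤ}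
    {X : T.C} {c : X ⟶ Y} (hc : IsCov N c) (hX : Good p C X)
    {P : RingSp T} {o : St.Oriented S P} {φ : GHom S p P} (hφ : IsBrownPeterson p o φ) {V : T.C}
    (hV : IsGenMoore φ (n + 1) V) (hYV : IsZero (Y ⊗ V)) :
    Vale.Agent.P221.St.TotallyFinite (ten X V) := by
  obtain ⟨Q, g, w, hT⟩ := distinguished_cocone_triangle c
  have hQ : Bd Q := eventually_atTop.2 ⟨N, fun j hj => hc.cof_zero h0 hT j hj⟩
  have hQV : Bd (Q ⊗ V) := closed_genMoore (Q := Bd)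
    (fun e h => h.of_retract e.inv e.hom e.inv_hom_id) (fun m h => h.shift m)
    (fun {X Y Z f g h} hT h1 h2 => Bd.ext₂ (rot_of_distTriang _ hT) h2 (h1.shift 1)) hV hQ
  have hT' := (tensorRight V).map_distinguished _ hT
  have hXV : Bd (X ⊗ V) :=
    Bd.ext₂ (inv_rot_of_distTriang _ hT') (Bd.shift hQV (-1)) (Bd.of_isZero hYV)
  obtain ⟨N₁, hN₁⟩ := eventually_atTop.1 hXV
  obtain ⟨-, hbd, -⟩ := main_ind hp.out hφ.typ hV
  obtain ⟨N₂, hN₂⟩ := hbd X ⟨N, BigCell.conn' h0 hc.cell⟩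
  refine ⟨H626.finite_ten_genMoore hC hX hV, |N₁| + |N₂|, fun k hk y => ?_⟩
  have h1 := le_abs_self N₁
  have h2 := neg_abs_le N₂
  have h3 := abs_nonneg N₁
  have h4 := abs_nonneg N₂
  rcases lt_abs.1 hk with h | h
  · exact hN₁ k (by omega) y
  · exact hN₂ k (by omega) y

end C

end Vale.Agent.P261.H84
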