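import Vale.Agent.P261.H84.St
import Vale.Agent.P261.H84.Local
import Vale.Agent.P221.H377.McR

/-!
# P261 (helper84): fp-spectra and `K(n)`-local spectra

* `exists_fp` : a `K`-local spectrum with finitely generated homotopy in high degrees agrees with an
  fp-spectrum in high degrees;
* `fg_of_fp`, `fg_of_thick` : homotopy groups of fp-spectra and of objects of `Thick B`;
* `thick_of_fg`, `fg_of_thick_loc` : the case of `L_K S` in the sparse range.
-/

open CategoryTheory MonoidalCategory MonObj Limits Pretriangulated Filter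

set_option linter.unusedSectionVars false

noncomputable section

namespace Vale.Agent.P261.H84

open Vale.Agent.P251 Vale.Agent.P251.S Vale.Agent.P251.T Vale.Agent.P251.M Vale.Agent.P251.F
  Vale.Agent.P251.I EvenSpheres Vale.Agent.P257.H702 Vale.Agent.P257.H80
  Vale.Agent.P251.St Vale.Agent.P251.St.SHCat Vale.Agent.P257.St Vale.Agent.P257.H762
open Vale.Agent.P221
open Vale.Agent.P221.St (IsGenMoore)
open Vale.Agent.P221.Loc (IsCov exists_cov Good FinDeg)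
open Vale.Agent.P261.H273 (FG)
open Vale.Agent.P261.StT (HasMoore)

variable {T : SHCat} {S : Susp T} {p n : ℕ}

theorem isGenMoore_of_M {P : RingSp T} {φ : GHom S p P} {E : ℕ → T.C → Prop} {j : ℕ} {V : T.C}
    (h : StM.IsTower φ E j V) : IsGenMoore φ j V := by
  induction h with
  | base h0 h1 h2 => exact .base h1 h2
  | step _ h0 h1 h2 h3 h4 ih => exact .step ih h1 h2 h3 h4

theorem local_iff (E Y : T.C) : StT.IsLocal E Y ↔ P251.S.IsLocal E Y :=
  ⟨fun h W hW f => h W ((acyclic_iff E W).2 hW) f, fun h W hW f => h ((acyclic_iff E W).1 hW) f⟩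

/-- `p = 0` on a Morava `K`-theory -/
theorem zsmul_id_morava (hn : 1 ≤ n) {K : RingSp T} (hK : IsMorava S K p n) :
    ((p : ℤ) ^ 1) • 𝟙 K.obj = 0 := by
  obtain ⟨m, rfl⟩ : ∃ m, n = m + 1 := ⟨n - 1, by omega⟩
  obtain ⟨_, oK, hKp⟩ := isMorava_of S K hK
  rw [pow_one]
  exact zsmul_id_of_char hKp.char

/-- **the cover is an fp-spectrum** -/
theorem exists_fp [hp : Fact p.Prime] (hn : 1 ≤ n) {K : RingSp T} (hK : IsMorava S K p n)
    {Y : T.C} (hY : StT.IsLocal K.obj Y) (hM : HasMoore S p n) {N : ℤ}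
    (hfg : ∀ t ≥ N, FG p (StM.Pi t Y)) :
    ∃ (X : T.C) (c : Hom X Y), StM.Fp S p n X ∧ StM.EvIso c := by
  obtain ⟨D, hD, hA, ⟨U⟩⟩ := H924.exists_mu S.toSpaceFunctor (P251.M.lineIso S.toSpaceFunctor)
  obtain ⟨C, i, δ, hC⟩ := H746.exists_moore (𝒯 := T.C) (p : ℤ)
  have h0 : Conn (0 : ℤ) (𝟙_ T.C) := D.conn_unit
  obtain ⟨P, o, φ, V, hφ, hV⟩ := hM
  have hV' := isGenMoore_of_M hV
  have hYl := (local_iff _ _).1 hY
  obtain ⟨X, c, hc⟩ := exists_cov N Y
  have hpc := pComplete_of_local (zsmul_id_morava hn hK) hYl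
  have hX : Good p C X := good_cov hC h0 hpc hfg hc
  obtain ⟨h1, N', h2⟩ := tf_cov hC h0 hc hX hφ hV' (isZero_local hn hK hYl hφ hV')
  exact ⟨X, c, ⟨hX.pc, ⟨N, BigCell.conn' h0 hc.cell⟩, P, o, φ, V, N', hφ, hV,
    fun k => ⟨h1 k, h2 k⟩⟩, N, hc.bij⟩

/-- transport of finite generation -/
theorem fg_of_evIso [hp : Fact p.Prime] {X Y : T.C} {c : Hom X Y} (hc : StM.EvIso c)
    (hX : ∀ t, FG p (StM.Pi t X)) : ∃ N : ℤ, ∀ t ≥ N, FG p (StM.Pi t Y) := by
  obtain ⟨N, hN⟩ := hc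
  refine ⟨N, fun t ht => ?_⟩
  let f : ((𝟙_ T.C)⟦t⟧ ⟶ X) →+ ((𝟙_ T.C)⟦t⟧ ⟶ Y) := Preadditive.rightComp ((𝟙_ T.C)⟦t⟧) c
  have hf : Function.Bijective f := hN t ht
  exact (hX t).congr (AddEquiv.ofBijective f hf)

/-- **fp-spectra have finitely generated homotopy groups** -/
theorem fg_of_fp [hp : Fact p.Prime] {X : T.C} (hX : StM.Fp S p n X) (t : ℤ) :
    FG p (StM.Pi t X) := by
  obtain ⟨C, i, δ, hC⟩ := H746.exists_moore (𝒯 := T.C) (p : ℤ)
  exact fg_of_good hC (Loc.good_of_fpType hp.out hC (Loc.isFpTypeI_of (H377.M.fpI_of_M hX))) t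

/-- **objects of `Thick B` have finitely generated homotopy groups** -/
theorem fg_of_thick [hp : Fact p.Prime] {B X : T.C} (hB : StM.IsStandardForm S p n B)
    (hX : StM.ThickOf (fun Y : T.C => Y = B) X) (t : ℤ) : FG p (StM.Pi t X) := by
  obtain ⟨D, hD, hA, ⟨U⟩⟩ := H924.exists_mu S.toSpaceFunctor (P251.M.lineIso S.toSpaceFunctor)
  have hBI := H460.isStandardForm_of_E (H377.M.standardE_of_M hB)
  have hB' : St.IsForm S p n B :=
    H924.isForm_of_isStandardForm hD hA U (Loc.isStandardForm_iff.1 (Loc.isStandardFormI_iff.1 hBI))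
  obtain ⟨C, i, δ, hC⟩ := H746.exists_moore (𝒯 := T.C) (p : ℤ)
  exact fg_of_good hC (Loc.good_of_thick (Loc.good_of_isForm hC hB')
    (H460.thick_of_thickI (H460.thickI_of_E (H377.M.thickE_of_M hX)))) t

/-- fp-spectra and `K`-local spectra -/
theorem fp_iff [hp : Fact p.Prime] (hn : 1 ≤ n) {K : RingSp T} (hK : IsMorava S K p n)
    {Y : T.C} (hY : StT.IsLocal K.obj Y) :
    (∃ (X : T.C) (c : Hom X Y), StM.Fp S p n X ∧ StM.EvIso c) ↔
      HasMoore S p n ∧ ∃ N : ℤ, ∀ t ≥ N, FG p (StM.Pi t Y) := by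
  constructor
  · rintro ⟨X, c, hX, hc⟩
    refine ⟨?_, fg_of_evIso hc (fg_of_fp hX)⟩
    obtain ⟨-, -, P, o, φ, V, N, h1, h2, -⟩ := hX
    exact ⟨P, o, φ, V, h1, h2⟩
  · rintro ⟨hM, N, hN⟩
    exact exists_fp hn hK hY hM hN

/-- concentration is transported -/
theorem conc_of_evIso {D : ℤ → Prop} {X Y : T.C} {c : Hom X Y} (hc : StM.EvIso c)
    (hY : StM.Conc D Y) : StM.Conc D X := by
  obtain ⟨N, hN⟩ := hc
  obtain ⟨M, hM⟩ := hY
  refine ⟨max N M, fun k hk hkD y => ?_⟩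
  apply (hN k (le_trans (le_max_left _ _) hk)).1
  exact (hM k (le_trans (le_max_right _ _) hk) hkD _).trans
    (hM k (le_trans (le_max_right _ _) hk) hkD _).symm

section sparse

open Vale.Agent.P261.H273 (sparse window2)

variable [hp : Fact p.Prime] (hn : 1 ≤ n) (hs : n ^ 2 + max n 2 ≤ 2 * (p - 1))
  {K : RingSp T} (hK : IsMorava S K p n) {Z : T.C} {z : Hom T.one Z} (hz : IsLoc K.obj z)

include hn hs hK hz

omit hn hs hK in
theorem isLocal_of_isLoc : StT.IsLocal K.obj Z := fun W hW g => hz.2 W hW g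

/-- the residue classes of `π_* L_K S` -/
def Ds (p n : ℕ) (t : ℤ) : Prop := ∃ s : ℕ, s ≤ n ^ 2 ∧ (2 * (p : ℤ) - 2) ∣ t + s

omit hn hs hK hz hp in
theorem per_Ds : StM.Per p (Ds p n) := fun t => by
  constructor
  · rintro ⟨s, h1, h2⟩
    refine ⟨s, h1, ?_⟩
    have h3 := dvd_sub h2 (dvd_refl (2 * (p : ℤ) - 2))
    rwa [show t + (2 * (p : ℤ) - 2) + s - (2 * (p : ℤ) - 2) = t + s by ring] at h3
  · rintro ⟨s, h1, h2⟩
    refine ⟨s, h1, ?_⟩
    have h3 := dvd_add h2 (dvd_refl (2 * (p : ℤ) - 2))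
    rwa [show t + s + (2 * (p : ℤ) - 2) = t + (2 * (p : ℤ) - 2) + s by ring] at h3

omit hK hz in
theorem missing_Ds (i : ℕ) (hi : i < max 1 (n - 1)) : ¬ Ds p n (1 + i) := by
  rintro ⟨s, h1, h2⟩
  have h3 := Int.le_of_dvd (by omega) h2
  have := hp.out.two_le
  omega

theorem conc_Z : StM.Conc (Ds p n) Z := by
  refine ⟨0, fun k _ hk y => ?_⟩
  have h1 := hp.out.two_le
  exact sparse S hn (by omega) K hK z hz k (fun s h2 h3 => hk ⟨s, h2, by
    rwa [show 2 * (p : ℤ) - 2 = 2 * ((p : ℤ) - 1) by ring]⟩) y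

/-- **finite type implies membership in `Thick B`** -/
theorem thick_of_fg {B : T.C} (hB : StM.IsStandardForm S p n B) (hM : HasMoore S p n)
    (hfg : ∀ t, FG p (StM.Pi t Z)) :
    ∃ (X : T.C) (c : Hom X Z), StM.ThickOf (fun Y : T.C => Y = B) X ∧ StM.EvIso c := by
  obtain ⟨X, c, h1, h2⟩ := exists_fp hn hK (isLocal_of_isLoc hz) hM (N := 0) fun t _ => hfg t
  exact ⟨X, c, H377.M.thick_of_missing hp.out hB h1 per_Ds (a := 1)
    (fun i hi => missing_Ds hn hs i hi) (conc_of_evIso h2 (conc_Z hn hs hK hz)), h2⟩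

/-- **membership in `Thick B` implies finite type** -/
theorem fg_of_thick_loc {B : T.C} (hB : StM.IsStandardForm S p n B)
    (h : ∃ (X : T.C) (c : Hom X Z), StM.ThickOf (fun Y : T.C => Y = B) X ∧ StM.EvIso c) (t : ℤ) :
    FG p (StM.Pi t Z) := by
  obtain ⟨X, c, h1, h2⟩ := h
  obtain ⟨N, hN⟩ := fg_of_evIso h2 (fg_of_thick hB h1)
  have h3 := hp.out.two_le
  refine window2 S hn (by omega) K hK z hz (|N| + n ^ 2) (fun c s hc _ _ hs' _ => hN _ ?_) t
  have h4 := le_abs_self N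
  have h5 : (1 : ℤ) ≤ 2 * ((p : ℤ) - 1) := by omega
  have h6 : c ≤ 2 * ((p : ℤ) - 1) * c := by
    have h7 := abs_nonneg N
    have h8 : 0 ≤ c := by
      have : (0 : ℤ) ≤ (n : ℤ) ^ 2 := by positivity
      linarith
    nlinarith
  have h7 : (s : ℤ) ≤ (n : ℤ) ^ 2 := by exact_mod_cast hs'
  linarith

end sparse

end Vale.Agent.P261.H84
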