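import Vale.Agent.P261.H84.RingMap
import Vale.Agent.P221.H395.Fp.Final
import Vale.Agent.P251.S.RegMU

/-!
# P261 (helper84): generalised Moore spectra and modules on which `v_n` is invertible

* `isIso_of_even` : isomorphisms are detected on even spheres, after suspension;
* `bij_step` : a self map of `V` which induces the multiplication by `x ^ i` gives an isomorphism on
  `N ⊗ V`, if `x` is invertible on `N`.
-/

open CategoryTheory MonoidalCategory OnePoint Limits Pretriangulated MonObj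
open Vale.Agent.P251.T Vale.Agent.P251.M Vale.Agent.P251.S
open Vale.Agent.P251.M.EvenSpheres
open Vale.Agent.P221.H395.Fp

set_option linter.unusedSectionVars false

open DirectSum

universe v u

noncomputable section

namespace Vale.Agent.P261.H84

section lib

variable {T : Type u} [Category.{v} T] [Preadditive T] [HasZeroObject T]
    [HasShift T ℤ] [∀ n : ℤ, (shiftFunctor T n).Additive] [Pretriangulated T]
    [MonoidalCategory T] [SymmetricCategory T] [TensorTriangulated T]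
variable {R K : T} [MonObj R] [IsCommMonObj R] [MonObj K] [IsCommMonObj K] {N : T}

theorem gsmul_restr (g : R ⟶ K) [IsMonHom g] (M : ModStr K N) {m n l : ℤ} (h : m + n = l)
    (a : (stdEven T).S m ⟶ R) (x : (stdEven T).S n ⟶ N) :
    gsmul (M.restr g) h a x = gsmul M h (a ≫ g) x := by
  unfold gsmul
  rw [ext_comp_left, Category.assoc]
  rfl

/-- the identity -/
def rs (g : R ⟶ K) [IsMonHom g] (M : ModStr K N) :
    (⨁ k, GrM (M.restr g) k) ≃+ ⨁ k, GrM M k := AddEquiv.refl _

theorem rs_of (g : R ⟶ K) [IsMonHom g] (M : ModStr K N) (k : ℤ) (y : (stdEven T).S k ⟶ N) :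
    rs g M (ofM (M.restr g) k y) = ofM M k y := rfl

theorem rs_smul (g : R ⟶ K) [IsMonHom g] (M : ModStr K N) (a : HRing (stdEven T) R)
    (u : ⨁ k, GrM (M.restr g) k) :
    rs g M (a • u) = (HRing.map (E := stdEven T) g a) • rs g M u := by
  induction a using DirectSum.induction_on with
  | zero => rw [zero_smul, map_zero, map_zero, zero_smul]
  | of m a =>
    induction u using ind with
    | h0 => rw [smul_zero, map_zero, smul_zero]
    | h1 k y =>
      have h1 := of_smul_ofM (M.restr g) (rfl : m + k = m + k) a y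
      have h2 := of_smul_ofM M (rfl : m + k = m + k) (a ≫ g) y
      have h3 : HRing.map (E := stdEven T) g (HRing.of (stdEven T) R m a) =
        HRing.of (stdEven T) K m (a ≫ g) := HRing.map_of g m a
      refine (congrArg (rs g M) h1).trans ?_
      rw [rs_of, gsmul_restr]
      refine Eq.trans h2.symm ?_
      rw [rs_of]
      exact congrArg (· • ofM M k y) h3.symm
    | h2 x y hx hy => rw [smul_add, map_add, map_add, smul_add, hx, hy]
  | add x y hx hy => rw [add_smul, map_add, hx, hy, map_add, add_smul]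

theorem bij_smul (g : R ⟶ K) [IsMonHom g] (M : ModStr K N) {a : HRing (stdEven T) R}
    (ha : IsUnit (HRing.map (E := stdEven T) g a)) :
    Function.Bijective fun u : ⨁ k, GrM (M.restr g) k => a • u := by
  obtain ⟨b, hb⟩ := ha.exists_left_inv
  have hb' : (HRing.map (E := stdEven T) g a) * b = 1 := by rw [mul_comm, hb]
  constructor
  · intro u u' h
    have h1 : (HRing.map (E := stdEven T) g a) • rs g M u =
        (HRing.map (E := stdEven T) g a) • rs g M u' := by
      rw [← rs_smul, ← rs_smul]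
      exact congrArg _ h
    have h2 := congrArg (b • ·) h1
    rw [← mul_smul, ← mul_smul, hb, one_smul, one_smul] at h2
    exact (rs g M).injective h2
  · intro u
    refine ⟨(rs g M).symm (b • rs g M u), ?_⟩
    apply (rs g M).injective
    rw [rs_smul, AddEquiv.apply_symm_apply, ← mul_smul, hb', one_smul]

/-- **the step**: a self map which induces the multiplication by an invertible element -/
theorem bij_step (g : R ⟶ K) [IsMonHom g] (M : ModStr K N) {V : T} {d : ℤ}
    {f : V ⊗ (stdEven T).S d ⟶ V} {w : (stdEven T).S d ⟶ R} {a : HRing (stdEven T) R} {i : ℕ}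
    (hw : HRing.of (stdEven T) R d w = a ^ i)
    (hδ : Gh ((FM.free R).map f - wm V w)) {L : ℕ} (hGhL : GhL R L V)
    (ha : IsUnit (HRing.map (E := stdEven T) g a)) (k : ℤ) :
    Function.Bijective fun y : (stdEven T).S k ⟶ N ⊗ (V ⊗ (stdEven T).S d) => y ≫ (N ◁ f) := by
  let M' : ModStr R N := M.restr g
  have hN := opH_pow_eq_zero M' (itD_eq_zero hδ hGhL)
  rw [opH_sub, opH_wm, hw] at hN
  let F : Module.End (HRing (stdEven T) R) (⨁ k, GrM (M'.tensorRight V) k) :=
    opH M' ((FM.free R).map f)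
  let U : Module.End (HRing (stdEven T) R) (⨁ k, GrM (M'.tensorRight V) k) :=
    (a ^ i) • 1
  have hU : IsUnit U := by
    rw [Module.End.isUnit_iff]
    have h1 : ∀ (M'' : ModStr R (N ⊗ V)), M'' = (M.tensorRight V).restr g →
        Function.Bijective fun u : ⨁ k, GrM M'' k => (a ^ i) • u := by
      rintro _ rfl
      exact bij_smul g _ (by rw [map_pow]; exact ha.pow i)
    exact h1 _ (ModStr.restr_tensorRight g M V)
  have hnil : IsNilpotent (F - U) := ⟨L, hN⟩
  have hc : Commute (F - U) U := by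
    change (F - U) * U = U * (F - U)
    change (F - U) * ((a ^ i) • 1) = ((a ^ i) • 1) * (F - U)
    rw [mul_smul_comm, smul_mul_assoc, _root_.mul_one, _root_.one_mul]
  have hF : IsUnit F := by
    have h1 := hnil.isUnit_add_left_of_commute hU hc
    rwa [add_sub_cancel] at h1
  rw [Module.End.isUnit_iff] at hF
  have hFe : ∀ u, F u = hmap (N ◁ f) (isLinear_wL M' f) (sgH M' V d u) := fun u => opH_free M' f u
  constructor
  · intro y y' hy
    obtain ⟨u, hu⟩ := sgH_surj M' V d (ofM _ k y)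
    obtain ⟨u', hu'⟩ := sgH_surj M' V d (ofM _ k y')
    have h1 : F u = F u' := by
      rw [hFe, hFe, hu, hu', hmap_of, hmap_of]
      exact congrArg _ hy
    have h2 := hF.1 h1
    have h3 : ofM (M'.tensorRight (V ⊗ (stdEven T).S d)) k y =
        ofM (M'.tensorRight (V ⊗ (stdEven T).S d)) k y' := by rw [← hu, ← hu', h2]
    have h4 := congrArg (cM _ k) h3
    rwa [cM_ofM, cM_ofM] at h4
  · intro z
    obtain ⟨u, hu⟩ := hF.2 (ofM (M'.tensorRight V) k z)
    refine ⟨cM _ k (sgH M' V d u), ?_⟩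
    dsimp only
    have h1 := cM_hmap (N ◁ f) (isLinear_wL M' f) (sgH M' V d u) k
    rw [← h1, ← hFe, hu, cM_ofM]

/-- the reordering of the factors -/
def exIso (N X P : T) : (N ⊗ X) ⊗ P ≅ (N ⊗ P) ⊗ X :=
  α_ N X P ≪≫ whiskerLeftIso N (β_ X P) ≪≫ (α_ N P X).symm

theorem exIso_nat (N P : T) {X Y : T} (f : X ⟶ Y) :
    (N ◁ f) ▷ P ≫ (exIso N Y P).hom = (exIso N X P).hom ≫ (N ⊗ P) ◁ f := by
  simp only [exIso, Iso.trans_hom, whiskerLeftIso_hom, Iso.symm_hom, Category.assoc]
  rw [associator_naturality_middle_assoc, ← MonoidalCategory.whiskerLeft_comp_assoc,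
    BraidedCategory.braiding_naturality_left, MonoidalCategory.whiskerLeft_comp_assoc,
    associator_inv_naturality_right]

end lib

section st

variable {T : Type u} [Category.{v} T] [Preadditive T] [HasZeroObject T]
    [HasShift T ℤ] [∀ n : ℤ, (shiftFunctor T n).Additive] [Pretriangulated T] [IsTriangulated T]
    [MonoidalCategory T] [SymmetricCategory T] [TensorTriangulated T] [MonoidalClosed T]
    [HasCoproducts.{0} T] [HasProducts.{0} T] [StableCat T]

/-- isomorphisms are detected on even spheres -/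
theorem isIso_of_even {X Y : T} (h : X ⟶ Y) {P : T} [IsInv P] (eP : P ≅ (𝟙_ T)⟦(1 : ℤ)⟧)
    (h0 : ∀ k, Function.Bijective fun y : (stdEven T).S k ⟶ X => y ≫ h)
    (h1 : ∀ k, Function.Bijective fun y : (stdEven T).S k ⟶ X ⊗ P => y ≫ h ▷ P) : IsIso h := by
  have hP := isEq_tensorRight P
  have c : ∀ k : ℤ, (stdEven T).S k ≅ (𝟙_ T)⟦(2 * k - 1 : ℤ)⟧ ⊗ P := fun k =>
    (stdEven T).sphIso (Iso.refl _) k ≪≫
      (shiftFunctorAdd' T (2 * k - 1) 1 (2 * k) (by ring)).app (𝟙_ T) ≪≫
      (TensorTriangulated.e ((𝟙_ T)⟦(2 * k - 1 : ℤ)⟧)).symm ≪≫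
      whiskerLeftIso _ eP.symm
  refine Vale.Agent.P251.M.isIso_of_bijective_hom (fun k => (𝟙_ T)⟦k⟧)
    (fun k k' h => ⟨((shiftFunctorAdd' T k 1 k' h).app (𝟙_ T)).symm⟩)
    (fun X hX => StableCat.generator X hX) _ ?_ ?_
  · intro k x hx
    rcases Int.even_or_odd' k with ⟨l, rfl | rfl⟩
    · have e := (stdEven T).sphIso (Iso.refl _) l
      have h2 : e.hom ≫ x = 0 := (h0 l).1 (by
        change (e.hom ≫ x) ≫ h = 0 ≫ h
        rw [Category.assoc, hx, comp_zero, zero_comp])
      exact (cancel_epi e.hom).1 (h2.trans comp_zero.symm)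
    · obtain ⟨l', rfl⟩ : ∃ l', l = l' - 1 := ⟨l + 1, by ring⟩
      obtain ⟨e⟩ : Nonempty ((𝟙_ T)⟦(2 * l' - 1 : ℤ)⟧ ≅ (𝟙_ T)⟦(2 * (l' - 1) + 1 : ℤ)⟧) :=
        ⟨eqToIso (congrArg (fun m : ℤ => (𝟙_ T)⟦m⟧) (by ring))⟩
      have h2 : (c l').hom ≫ (e.hom ≫ x) ▷ P = 0 := (h1 l').1 (by
        change ((c l').hom ≫ (e.hom ≫ x) ▷ P) ≫ h ▷ P = 0 ≫ h ▷ P
        rw [Category.assoc, ← comp_whiskerRight, Category.assoc, hx, comp_zero,
          zero_whiskerRight', comp_zero, zero_comp])
      have h3 : (e.hom ≫ x) ▷ P = 0 := (cancel_epi (c l').hom).1 (h2.trans comp_zero.symm)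
      have h4 : e.hom ≫ x = 0 := (tensorRight P).map_injective
        (h3.trans ((tensorRight P).map_zero _ _).symm)
      exact (cancel_epi e.hom).1 (h4.trans comp_zero.symm)
  · intro k y
    rcases Int.even_or_odd' k with ⟨l, rfl | rfl⟩
    · have e := (stdEven T).sphIso (Iso.refl _) l
      obtain ⟨x, hx⟩ := (h0 l).2 (e.hom ≫ y)
      refine ⟨e.inv ≫ x, ?_⟩
      change x ≫ h = _ at hx
      rw [Category.assoc, hx, Iso.inv_hom_id_assoc]
    · obtain ⟨l', rfl⟩ : ∃ l', l = l' - 1 := ⟨l + 1, by ring⟩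
      obtain ⟨e⟩ : Nonempty ((𝟙_ T)⟦(2 * l' - 1 : ℤ)⟧ ≅ (𝟙_ T)⟦(2 * (l' - 1) + 1 : ℤ)⟧) :=
        ⟨eqToIso (congrArg (fun m : ℤ => (𝟙_ T)⟦m⟧) (by ring))⟩
      obtain ⟨x, hx⟩ := (h1 l').2 ((c l').hom ≫ (e.hom ≫ y) ▷ P)
      change x ≫ h ▷ P = _ at hx
      obtain ⟨x', hx'⟩ := (tensorRight P).map_surjective ((c l').inv ≫ x)
      change x' ▷ P = _ at hx'
      refine ⟨e.inv ≫ x', ?_⟩
      have h2 : x' ≫ h = e.hom ≫ y := by
        apply (tensorRight P).map_injective
        change (x' ≫ h) ▷ P = (e.hom ≫ y) ▷ P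
        rw [comp_whiskerRight, hx', Category.assoc, hx, Iso.inv_hom_id_assoc]
      rw [Category.assoc, h2, Iso.inv_hom_id_assoc]

variable {R K : T} [MonObj R] [IsCommMonObj R] [MonObj K] [IsCommMonObj K] {N : T}

theorem isInv_S1' : IsInv ((𝟙_ T)⟦(1 : ℤ)⟧) :=
  IsInv.of_inverse (L' := (𝟙_ T)⟦(-1 : ℤ)⟧) (β_ _ _ ≪≫ negOne)

/-- **the cofibre of a self map which induces the multiplication by an invertible element** -/
theorem isZero_step (g : R ⟶ K) [IsMonHom g] (M : ModStr K N) {V W : T} {d : ℤ}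
    {f : V ⊗ (stdEven T).S d ⟶ V} {q : V ⟶ W} {h : W ⟶ (V ⊗ (stdEven T).S d)⟦(1 : ℤ)⟧}
    (hT : Triangle.mk f q h ∈ distTriang T)
    {w : (stdEven T).S d ⟶ R} {a : HRing (stdEven T) R} {i : ℕ}
    (hw : HRing.of (stdEven T) R d w = a ^ i)
    (hδ : Gh ((FM.free R).map f - wm V w)) {L : ℕ} (hGhL : GhL R L V)
    (ha : IsUnit (HRing.map (E := stdEven T) g a)) : IsZero (N ⊗ W) := by
  have := isInv_S1' (T := T)
  have h1 : IsIso (N ◁ f) := by
    refine isIso_of_even (N ◁ f) (P := (𝟙_ T)⟦(1 : ℤ)⟧) (Iso.refl _)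
      (fun k => bij_step g M hw hδ hGhL ha k) fun k => ?_
    have h2 := bij_step g (M.tensorRight ((𝟙_ T)⟦(1 : ℤ)⟧)) hw hδ hGhL ha k
    have h3 := exIso_nat N ((𝟙_ T)⟦(1 : ℤ)⟧) f
    constructor
    · intro y y' hy
      change y ≫ _ = y' ≫ _ at hy
      have h4 := h2.1 (a₁ := y ≫ (exIso N _ _).hom) (a₂ := y' ≫ (exIso N _ _).hom) (by
        dsimp only
        rw [Category.assoc, Category.assoc, ← h3, reassoc_of% hy])
      exact (cancel_mono _).1 h4
    · intro z
      obtain ⟨y, hy⟩ := h2.2 (z ≫ (exIso N _ _).hom)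
      change y ≫ _ = _ at hy
      refine ⟨y ≫ (exIso N _ _).inv, ?_⟩
      dsimp only
      rw [← cancel_mono (exIso N _ _).hom, Category.assoc, Category.assoc, h3,
        Iso.inv_hom_id_assoc, hy]
  exact (Triangle.isZero₃_iff_isIso₁ _ (dist_whiskerLeft N hT)).2 h1

end st

end Vale.Agent.P261.H84
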