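import Vale.Agent.P261.H84.QTop
import Vale.Agent.P261.H84.ConvK
import Vale.Agent.P261.H36.CountTop

/-!
# P261 (helper84): finite type, countability and growth

* `growth_window` : countability of finitely many homotopy groups of `L_K S ⊗ S/p` implies the
  growth bound for all of them;
* `card_of_kill` : groups killed by `p ^ m`;
* `card_Z` : the orders of the homotopy groups of `L_K S`.
-/

open CategoryTheory MonoidalCategory Limits Pretriangulated MonObj

set_option linter.unusedSectionVars false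

universe v u

namespace Vale.Agent.P261.H84

open Vale.Agent.P251.S Vale.Agent.P251.T Vale.Agent.P251.M Vale.Agent.P251.F Vale.Agent.P251
  Vale.Agent.P261

section alg

variable {A : Type*} [AddCommGroup A] {p N : ℕ}

/-- multiplication by `p ^ i` -/
def mulP (A : Type*) [AddCommGroup A] (p i : ℕ) : A →+ A := nsmulAddMonoidHom (p ^ i)

theorem mulP_apply (i : ℕ) (x : A) : mulP A p i x = p ^ i • x := rfl

theorem q_range (h : QMod N (⊤ : AddSubgroup A) (mulP A p 1).range) (i : ℕ) :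
    QMod (N ^ i) (⊤ : AddSubgroup A) (mulP A p i).range := by
  induction i with
  | zero =>
    refine (QMod.refl (⊤ : AddSubgroup A)).mono (by rw [pow_zero]) le_rfl fun x _ => ?_
    exact ⟨x, by rw [mulP_apply, pow_zero, one_smul]⟩
  | succ i ih =>
    have h1 := QMod.map h (mulP A p i)
    have h2 : QMod N (mulP A p i).range (mulP A p (i + 1)).range := by
      refine h1.mono le_rfl ?_ ?_
      · rintro _ ⟨x, rfl⟩
        exact ⟨x, trivial, rfl⟩
      · rintro _ ⟨_, ⟨x, rfl⟩, rfl⟩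
        refine ⟨x, ?_⟩
        rw [mulP_apply, mulP_apply, mulP_apply, smul_smul, ← pow_add]
    exact (ih.trans h2).le (by rw [pow_succ])

/-- groups killed by `p ^ m` -/
theorem card_of_kill (h : QMod N (⊤ : AddSubgroup A) (mulP A p 1).range) {m : ℕ}
    (hm : ∀ x : A, p ^ m • x = 0) : Finite A ∧ Nat.card A ≤ N ^ m := by
  have h1 : QMod (N ^ m) (⊤ : AddSubgroup A) ⊥ := (q_range h m).mono le_rfl le_rfl (by
    rintro _ ⟨x, rfl⟩
    rw [mulP_apply, hm]
    exact AddSubgroup.zero_mem _)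
  obtain ⟨h2, h3⟩ := h1.finite_bot
  rw [Nat.card_congr (AddSubgroup.topEquiv (G := A)).toEquiv] at h3
  exact ⟨Finite.of_equiv _ (AddSubgroup.topEquiv (G := A)).toEquiv, h3⟩

/-- from an injection of `A / p A` -/
theorem q_of_map {B : Type*} [AddCommGroup B] [Finite B] (φ : A →+ B) (hB : Nat.card B ≤ N)
    (h : ∀ x, φ x = 0 → ∃ y, p • y = x) : QMod N (⊤ : AddSubgroup A) (mulP A p 1).range := by
  cases nonempty_fintype B
  have h1 : QMod N (⊤ : AddSubgroup B) ⊥ :=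
    ⟨Finset.univ, by rwa [Finset.card_univ, ← Nat.card_eq_fintype_card], fun x _ =>
      ⟨x, Finset.mem_univ _, by rw [sub_self]; exact AddSubgroup.zero_mem _⟩⟩
  refine (QMod.of_rel (fun x y => φ x = y) h1 _ (QMod.refl _) (fun x _ => ⟨φ x, trivial, rfl⟩)
    ?_).le (by rw [_root_.mul_one])
  rintro x₁ - x₂ - _ _ rfl rfl hx
  rw [← map_sub, AddSubgroup.mem_bot] at hx
  obtain ⟨y, hy⟩ := h _ hx
  exact ⟨y, by rw [mulP_apply, pow_one, hy]⟩

end alg

open Vale.Agent.P251.I Vale.Agent.P251.St Vale.Agent.P251.St.SHCat Vale.Agent.P261.H273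

section

variable {T : SHCat} (S : Susp T) {p n : ℕ} [hp : Fact p.Prime] (hn : 1 ≤ n)
  (hs : n ^ 2 + 1 < 2 * (p - 1)) {K : RingSp T} (hK : St.IsMorava S K p n) {Z : T.C}
  {z : Hom T.one Z} (hz : St.IsLoc K.obj z) {C : T.C} {a : Hom T.one C}
  {b : Hom C (sus T.one)} (hab : Dist (zmul (p : ℤ) (ident T.one)) a b)

include hn hs hK hz hab

/-- a single degree -/
theorem fg_of_countable (t : ℤ) (h : Countable (Hom (sphere T t) (ten Z C))) :
    StK.FG p (Hom (sphere T t) Z) := by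
  have := locallySmall_self.{0} T.C
  have hp2 := ne_two_of_sparse hn hs
  have hp1 : 1 ≤ p := hp.out.one_lt.le
  have hab' : Triangle.mk ((p : ℤ) • 𝟙 (𝟙_ T.C)) a b ∈ distTriang T.C := hab
  obtain ⟨D, H⟩ := M.MU_univ T.C S.toSpaceFunctor (M.lineIso S.toSpaceFunctor)
  obtain ⟨Dk⟩ := exists_kosData D.P (p : ℤ) n (D.vs p)
  obtain ⟨F⟩ := Vale.Agent.P251.Z.nonempty_locFunctor' Dk.K
  have hZ := (isLoc_iff K.obj z).1 hz
  obtain ⟨e⟩ := exists_iso_of_isLoc F
    (fun W hW => (acyclic_morava_iff S hp2 H hab' hn hK Dk W).2 hW)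
    (fun W hW => (acyclic_morava_iff S hp2 H hab' hn hK Dk W).1 hW) hZ
  obtain ⟨g⟩ := exists_tensIso hab' F e
  have hs' : ((n ^ 2 : ℕ) : ℤ) + 1 < 2 * ((p : ℤ) - 1) := by
    have h : ((n ^ 2 + 1 : ℕ) : ℤ) < ((2 * (p - 1) : ℕ) : ℤ) := by exact_mod_cast hs
    rw [Nat.cast_add, Nat.cast_mul, Nat.cast_sub hp1] at h
    simpa using h
  let e1 : ((𝟙_ T.C)⟦t⟧ ⟶ F.L.obj (𝟙_ T.C ⊗ C)) ≃ Hom (sphere T t) (ten Z C) := homEquiv g _
  have h1 : Countable ((𝟙_ T.C)⟦t⟧ ⟶ F.L.obj (𝟙_ T.C ⊗ C)) := e1.injective.countable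
  have h2 := Vale.Agent.P261.H36.top_finite_of_countable D Dk F hp2 hn hab'
    (not_dvd_of_sparse hn hs) (by rw [← pow_two]; linarith) t
  exact fg_of_finite_iso F hab' (zsmul_id_of_morava S hn hK) e hZ.2 _ h2

/-- **countability in a window implies the growth bound** -/
theorem growth_window (w : ℤ) (hw : ∀ (c : ℤ) (s : ℕ), w ≤ c →
      c < w + (∑ k ∈ Finset.Ico 1 n, ∑ j ∈ Finset.range k, p ^ j : ℕ) → 1 ≤ s → s ≤ n ^ 2 →
      (s = 1 → c = 0) → Countable (Hom (sphere T (2 * ((p : ℤ) - 1) * c - s)) (ten Z C))) :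
    StK.Growth p (n - 1) (ten Z C) :=
  growth_sparse S hn hs hK hz hab (window2 S hn hs K hK z hz w fun c s h1 h2 h3 h4 h5 =>
    fg_of_countable S hn hs hK hz hab _ (hw c s h1 h2 h3 h4 h5))

/-- the growth bound implies finite type -/
theorem fg_of_growth_sparse {d : ℕ} (h : StK.Growth p d (ten Z C)) (t : ℤ) :
    StK.FG p (Hom (sphere T t) Z) := by
  obtain ⟨c, hc⟩ := h
  have := (hc t).1
  exact fg_of_countable S hn hs hK hz hab t inferInstance

/-- **the orders of the homotopy groups of `L_K S`** -/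
theorem card_Z (h : StK.Growth p (n - 1) (ten Z C)) : ∃ d : ℕ, ∀ (c : ℤ) (s : ℕ), c ≠ 0 →
    s ≤ n ^ 2 → Finite (Hom (sphere T (2 * ((p : ℤ) - 1) * c - s)) Z) ∧
      Nat.card (Hom (sphere T (2 * ((p : ℤ) - 1) * c - s)) Z) ≤
        p ^ (d * (1 + padicValInt p c) * (1 + c.natAbs) ^ (n - 1)) := by
  obtain ⟨d, hd⟩ := h
  have hp1 : 1 ≤ p := hp.out.one_lt.le
  refine ⟨d * (1 + 2 * p + n ^ 2) ^ (n - 1), fun c s hc hsn => ?_⟩
  have hkill := kill S hn hs K hK z hz c s hc hsn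
  generalize ht : 2 * ((p : ℤ) - 1) * c - s = t at hkill
  obtain ⟨h1, h2⟩ := hd t
  have hab' : Triangle.mk ((p : ℤ) • 𝟙 (𝟙_ T.C)) a b ∈ distTriang T.C := hab
  have hT := redTri_distinguished hab' Z
  have h3 := q_of_map (A := Hom (sphere T t) Z) (B := Hom (sphere T t) (ten Z C)) (p := p)
    (Preadditive.rightComp (sphere T t) ((redC a).app Z)) h2 (fun x hx => by
      obtain ⟨y, hy⟩ : ∃ y : (𝟙_ T.C)⟦t⟧ ⟶ Z, x = y ≫ ((p : ℤ) • 𝟙 Z) :=
        Triangle.coyoneda_exact₂ _ hT x hx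
      exact ⟨y, by rw [hy, Preadditive.comp_zsmul, Category.comp_id, natCast_zsmul]⟩)
  obtain ⟨h4, h5⟩ := card_of_kill h3 hkill
  refine ⟨h4, h5.trans ?_⟩
  rw [← pow_mul]
  refine Nat.pow_le_pow_right hp1 ?_
  have h6 : 1 + t.natAbs ≤ (1 + 2 * p + n ^ 2) * (1 + c.natAbs) := by
    have h7 : t.natAbs ≤ 2 * p * c.natAbs + n ^ 2 := by
      rw [← ht]
      have h8 := Int.natAbs_sub_le (2 * ((p : ℤ) - 1) * c) s
      have h9 : (2 * ((p : ℤ) - 1) * c).natAbs = 2 * (p - 1) * c.natAbs := by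
        rw [Int.natAbs_mul, Int.natAbs_mul]
        congr 2
        omega
      rw [h9, Int.natAbs_natCast] at h8
      have h10 : 2 * (p - 1) * c.natAbs ≤ 2 * p * c.natAbs :=
        Nat.mul_le_mul_right _ (by omega)
      omega
    nlinarith [Nat.zero_le (n ^ 2 * c.natAbs), Nat.zero_le (2 * p)]
  calc d * (1 + t.natAbs) ^ (n - 1) * (1 + padicValInt p c)
      ≤ d * ((1 + 2 * p + n ^ 2) * (1 + c.natAbs)) ^ (n - 1) * (1 + padicValInt p c) :=
        Nat.mul_le_mul_right _ (Nat.mul_le_mul_left _ (Nat.pow_le_pow_left h6 _))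
    _ = _ := by rw [mul_pow]; ring

end

/-- local objects, `n ≤ 4` -/
theorem growth_local {T : SHCat} {S : Susp T} {p n : ℕ} [Fact p.Prime] (hn : 1 ≤ n) (h4 : n ≤ 4)
    (hs : n ^ 2 + 1 < 2 * (p - 1)) {K : RingSp T} (hK : St.IsMorava S K p n) {Y : T.C}
    (hY : StK.IsLocal K.obj Y) {C : T.C} {a : Hom T.one C} {b : Hom C (sus T.one)}
    (hab : Dist (zmul (p : ℤ) (ident T.one)) a b) :
    (∀ t : ℤ, StK.FG p (Hom (sphere T t) Y)) ↔ StK.Growth p (n - 1) (ten Y C) :=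
  ⟨fun h => growth_of_fg hn hK hY (hasMoore_of_sq hn h4 hs) hab h, fun h t =>
    fg_of_growth hn hK hY hab h t⟩

end Vale.Agent.P261.H84
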