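import Vale.Agent.P261.NNWindow

/-!
# P261 (helper84): orders of cohomology groups in long exact sequences

Quantitative versions of the lemmas of `P261/FinMod.lean`.
-/

universe u v

set_option linter.unusedSectionVars false

namespace Vale.Agent.P261.H84

open Vale.Agent.P251.S

section QMod

variable {G G' : Type*} [AddCommGroup G] [AddCommGroup G']

/-- The image of `K` in `G / H` has at most `c` elements. -/
def QMod (c : ℕ) (K H : AddSubgroup G) : Prop :=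
  ∃ S : Finset G, S.card ≤ c ∧ ∀ x ∈ K, ∃ s ∈ S, x - s ∈ H

theorem QMod.mono {c c' : ℕ} {K K' H H' : AddSubgroup G} (h : QMod c K H) (hc : c ≤ c')
    (hK : K' ≤ K) (hH : H ≤ H') : QMod c' K' H' := by
  obtain ⟨S, hS, h⟩ := h
  refine ⟨S, hS.trans hc, fun x hx => ?_⟩
  obtain ⟨s, hs, hx'⟩ := h x (hK hx)
  exact ⟨s, hs, hH hx'⟩

theorem QMod.le {c c' : ℕ} {K H : AddSubgroup G} (h : QMod c K H) (hc : c ≤ c') : QMod c' K H :=
  h.mono hc le_rfl le_rfl

theorem QMod.refl (K : AddSubgroup G) : QMod 1 K K :=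
  ⟨{0}, by rw [Finset.card_singleton], fun x hx => ⟨0, Finset.mem_singleton_self 0, by
    rwa [sub_zero]⟩⟩

theorem QMod.of_le {K H : AddSubgroup G} (h : K ≤ H) : QMod 1 K H := (QMod.refl K).mono le_rfl le_rfl h

theorem QMod.of_finMod {K H : AddSubgroup G} (h : FinMod K H) : ∃ c, QMod c K H := by
  obtain ⟨S, hS, h⟩ := h
  exact ⟨_, hS.toFinset, le_rfl, fun x hx => by
    obtain ⟨s, hs, hx'⟩ := h x hx
    exact ⟨s, hS.mem_toFinset.2 hs, hx'⟩⟩

theorem QMod.finMod {c : ℕ} {K H : AddSubgroup G} (h : QMod c K H) : FinMod K H := by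
  obtain ⟨S, -, h⟩ := h
  exact ⟨S, S.finite_toSet, fun x hx => by
    obtain ⟨s, hs, hx'⟩ := h x hx
    exact ⟨s, hs, hx'⟩⟩

theorem QMod.trans {c c' : ℕ} {K H L : AddSubgroup G} (h : QMod c K H) (h' : QMod c' H L) :
    QMod (c * c') K L := by
  classical
  obtain ⟨S, hS, h⟩ := h
  obtain ⟨S', hS', h'⟩ := h'
  refine ⟨Finset.image₂ (· + ·) S S', (Finset.card_image₂_le _ _ _).trans (Nat.mul_le_mul hS hS'),
    fun x hx => ?_⟩
  obtain ⟨s, hs, hxs⟩ := h x hx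
  obtain ⟨s', hs', hxs'⟩ := h' _ hxs
  exact ⟨s + s', Finset.mem_image₂_of_mem hs hs', by rwa [← sub_sub]⟩

theorem QMod.map {c : ℕ} {K H : AddSubgroup G} (h : QMod c K H) (f : G →+ G') :
    QMod c (K.map f) (H.map f) := by
  classical
  obtain ⟨S, hS, h⟩ := h
  refine ⟨S.image f, Finset.card_image_le.trans hS, ?_⟩
  rintro _ ⟨x, hx, rfl⟩
  obtain ⟨s, hs, hxs⟩ := h x hx
  exact ⟨f s, Finset.mem_image_of_mem f hs, ⟨_, hxs, map_sub f x s⟩⟩

/-- The main tool: a map on `K` with values in a group, compatible with differences. -/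
theorem QMod.of_rel {c c' : ℕ} {K H : AddSubgroup G} {K' H' : AddSubgroup G'}
    (R : G → G' → Prop) (h' : QMod c' K' H') (L : AddSubgroup G) (hL : QMod c L H)
    (hex : ∀ x ∈ K, ∃ y ∈ K', R x y)
    (hR : ∀ x₁ ∈ K, ∀ x₂ ∈ K, ∀ y₁ y₂, R x₁ y₁ → R x₂ y₂ → y₁ - y₂ ∈ H' → x₁ - x₂ ∈ L) :
    QMod (c' * c) K H := by
  classical
  have key : QMod c' K L := by
    obtain ⟨S, hS, h⟩ := h'
    let P : G' → G → Prop := fun s x => x ∈ K ∧ ∃ y, R x y ∧ y - s ∈ H'
    let g : G' → G := fun s => if hs : ∃ x, P s x then hs.choose else 0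
    refine ⟨S.image g, Finset.card_image_le.trans hS, fun x hx => ?_⟩
    obtain ⟨y, hy, hxy⟩ := hex x hx
    obtain ⟨s, hs, hys⟩ := h y hy
    have hs' : ∃ x, P s x := ⟨x, hx, y, hxy, hys⟩
    refine ⟨g s, Finset.mem_image_of_mem g hs, ?_⟩
    have h1 : P s (g s) := by
      simp only [g, dif_pos hs']
      exact hs'.choose_spec
    obtain ⟨hg, y₂, hy₂, hys₂⟩ := h1
    refine hR x hx _ hg y y₂ hxy hy₂ ?_
    have h2 := H'.sub_mem hys hys₂
    rwa [sub_sub_sub_cancel_right] at h2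
  exact key.trans hL

theorem QMod.finite_bot {c : ℕ} {K : AddSubgroup G} (h : QMod c K ⊥) :
    Finite K ∧ Nat.card K ≤ c := by
  obtain ⟨S, hS, h⟩ := h
  have h1 : ∀ x : K, (x : G) ∈ S := fun x => by
    obtain ⟨s, hs, hxs⟩ := h x x.2
    rw [AddSubgroup.mem_bot, sub_eq_zero] at hxs
    rwa [hxs]
  have h2 : Function.Injective fun x : K => (⟨x, h1 x⟩ : S) := fun a b hab =>
    Subtype.ext (congrArg (fun z : S => (z : G)) hab)
  refine ⟨Finite.of_injective _ h2, (Nat.card_le_card_of_injective _ h2).trans ?_⟩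
  rw [Nat.card_eq_fintype_card, Fintype.card_coe]
  exact hS

end QMod

/-- `H^s` has at most `c` elements. -/
def QFin (X : Cx.{u}) (s c : ℕ) : Prop := QMod c (X.Z s) (X.B s)

section ShortEx

variable {X Y W : Cx.{u}} (E : ShortEx X Y W)
include E

/-- exactness at `H^s(Y)` -/
theorem q_mid {s a b : ℕ} (hX : QFin X s a) (hW : QFin W s b) : QFin Y s (b * a) := by
  refine QMod.of_rel (K' := W.Z s) (H' := W.B s) (fun y w => E.q s y = w) hW
    ((X.Z s).map (E.i s) ⊔ Y.B s) ?_ ?_ ?_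
  · obtain ⟨S, hS, h⟩ := QMod.map hX (E.i s)
    refine ⟨S, hS, fun y hy => ?_⟩
    obtain ⟨a, ha, b, hb, rfl⟩ := AddSubgroup.mem_sup.1 hy
    obtain ⟨t, ht, hat⟩ := h a ha
    refine ⟨t, ht, ?_⟩
    have h1 : a + b - t = (a - t) + b := by abel
    rw [h1]
    refine (Y.B s).add_mem ?_ hb
    obtain ⟨x, hx, hx'⟩ := hat
    rw [← hx']
    exact E.i_mem_B hx
  · intro y hy
    refine ⟨_, ?_, rfl⟩
    rw [Cx.mem_Z, ← E.q_d, show Y.d s y = 0 from hy, map_zero]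
  · rintro y₁ hy₁ y₂ hy₂ _ _ rfl rfl h
    rw [← map_sub] at h
    have hy : y₁ - y₂ ∈ Y.Z s := (Y.Z s).sub_mem hy₁ hy₂
    revert h hy
    generalize y₁ - y₂ = y
    intro h hy
    rw [AddSubgroup.mem_sup]
    rcases s with _ | s
    · rw [Cx.mem_B_zero] at h
      obtain ⟨x, rfl⟩ := E.ex _ _ h
      exact ⟨_, ⟨x, E.mem_Z_of_i hy, rfl⟩, 0, (Y.B 0).zero_mem, add_zero _⟩
    · obtain ⟨w, hw⟩ := h
      obtain ⟨y', rfl⟩ := E.surj _ w
      rw [← E.q_d] at hw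
      obtain ⟨x, hx⟩ := E.ex _ (y - Y.d s y') (by rw [map_sub, hw, sub_self])
      refine ⟨_, ⟨x, E.mem_Z_of_i ?_, rfl⟩, Y.d s y', ⟨y', rfl⟩, ?_⟩
      · rw [hx, map_sub, Y.d_d, sub_zero]
        exact hy
      · rw [hx, sub_add_cancel]

/-- exactness at `H^{s+1}(X)` -/
theorem q_left {s a b : ℕ} (hW : QFin W s b) (hY : QFin Y (s + 1) a) :
    QFin X (s + 1) (a * b) := by
  refine QMod.of_rel (K' := Y.Z (s + 1)) (H' := Y.B (s + 1)) (fun x y => E.i (s + 1) x = y) hY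
    ((X.Z (s + 1)) ⊓ (Y.B (s + 1)).comap (E.i (s + 1))) ?_ ?_ ?_
  · have h1 := QMod.of_rel (K := (X.Z (s + 1)) ⊓ (Y.B (s + 1)).comap (E.i (s + 1)))
      (H := X.B (s + 1)) (K' := W.Z s) (H' := W.B s)
      (fun x w => ∃ y, E.q s y = w ∧ Y.d s y = E.i (s + 1) x) hW (X.B (s + 1)) (QMod.refl _)
      ?_ ?_
    · exact h1.le (by rw [mul_one])
    · rintro x ⟨-, y, hy⟩
      refine ⟨E.q s y, ?_, y, rfl, hy⟩
      rw [Cx.mem_Z, ← E.q_d, hy, E.q_i]
    · rintro x₁ - x₂ - _ _ ⟨y₁, rfl, h₁⟩ ⟨y₂, rfl, h₂⟩ h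
      rw [← map_sub] at h
      rcases s with _ | s
      · rw [Cx.mem_B_zero] at h
        obtain ⟨x, hx⟩ := E.ex _ _ h
        refine ⟨x, E.inj _ ?_⟩
        rw [E.i_d, hx, map_sub, h₁, h₂, map_sub]
      · obtain ⟨w, hw⟩ := h
        obtain ⟨y, rfl⟩ := E.surj _ w
        rw [← E.q_d] at hw
        obtain ⟨x, hx⟩ := E.ex _ (y₁ - y₂ - Y.d s y) (by rw [map_sub, hw, sub_self])
        refine ⟨x, E.inj _ ?_⟩
        rw [E.i_d, hx, map_sub, map_sub, h₁, h₂, Y.d_d, sub_zero, map_sub]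
  · intro x hx
    refine ⟨_, ?_, rfl⟩
    rw [Cx.mem_Z, ← E.i_d, show X.d (s + 1) x = 0 from hx, map_zero]
  · rintro x₁ h₁ x₂ h₂ _ _ rfl rfl h
    refine AddSubgroup.mem_inf.2 ⟨(X.Z (s + 1)).sub_mem h₁ h₂, AddSubgroup.mem_comap.2 ?_⟩
    rw [map_sub]
    exact h

/-- injectivity of `H^0(X) → H^0(Y)` -/
theorem q_left_zero {a : ℕ} (hY : QFin Y 0 a) : QFin X 0 a := by
  have h1 := QMod.of_rel (K := X.Z 0) (H := X.B 0) (K' := Y.Z 0) (H' := Y.B 0)
    (fun x y => E.i 0 x = y) hY (X.B 0) (QMod.refl _) ?_ ?_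
  · exact h1.le (by rw [mul_one])
  · intro x hx
    refine ⟨_, ?_, rfl⟩
    rw [Cx.mem_Z, ← E.i_d, show X.d 0 x = 0 from hx, map_zero]
  · rintro x₁ h₁ x₂ h₂ _ _ rfl rfl h
    rw [Cx.mem_B_zero, ← map_sub] at h
    rw [Cx.mem_B_zero]
    exact E.inj 0 (by rw [h, map_zero])

end ShortEx

/-- Isomorphic complexes. -/
theorem QFin.of_equiv {X Y : Cx.{u}} (e : ∀ s, X.C s ≃+ Y.C s)
    (he : ∀ s x, e (s + 1) (X.d s x) = Y.d s (e s x)) {s c : ℕ} (h : QFin X s c) :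
    QFin Y s c := by
  refine (QMod.map h (e s).toAddMonoidHom).mono le_rfl ?_ ?_
  · intro y hy
    refine ⟨(e s).symm y, ?_, (e s).apply_symm_apply y⟩
    apply (e (s + 1)).injective
    rw [he, (e s).apply_symm_apply, map_zero]
    exact hy
  · rintro _ ⟨x, hx, rfl⟩
    rcases s with _ | s
    · rw [SetLike.mem_coe, Cx.mem_B_zero] at hx
      rw [Cx.mem_B_zero, hx]
      exact map_zero _
    · obtain ⟨y, rfl⟩ := hx
      exact ⟨e s y, (he s y).symm⟩

/-- Isomorphic towers. -/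
theorem q_lim_congr {X Y : TowerCx.{0}} (f : ∀ s j, X.C s j ≃+ Y.C s j)
    (hd : ∀ s j x, f (s + 1) j (X.d s j x) = Y.d s j (f s j x))
    (hr : ∀ s j x, f s j (X.r s j x) = Y.r s j (f s (j + 1) x)) {s c : ℕ}
    (h : QFin (limCx X) s c) : QFin (limCx Y) s c := by
  let e : ∀ s, (limCx X).C s ≃+ (limCx Y).C s := fun s =>
    { toFun := fun x => ⟨fun j => f s j (x.1 j), fun j => by rw [← hr, x.2 j]⟩
      invFun := fun y => ⟨fun j => (f s j).symm (y.1 j), fun j => by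
        apply (f s j).injective
        rw [hr, (f s (j + 1)).apply_symm_apply, (f s j).apply_symm_apply, y.2 j]⟩
      left_inv := fun x => Subtype.ext (funext fun j => (f s j).symm_apply_apply _)
      right_inv := fun y => Subtype.ext (funext fun j => (f s j).apply_symm_apply _)
      map_add' := fun x y => Subtype.ext (funext fun j => map_add (f s j) _ _) }
  exact h.of_equiv e fun s x => Subtype.ext (funext fun j => hd s j _)

theorem q_lim_congr_symm {X Y : TowerCx.{0}} (f : ∀ s j, X.C s j ≃+ Y.C s j)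
    (hd : ∀ s j x, f (s + 1) j (X.d s j x) = Y.d s j (f s j x))
    (hr : ∀ s j x, f s j (X.r s j x) = Y.r s j (f s (j + 1) x)) {s c : ℕ}
    (h : QFin (limCx Y) s c) : QFin (limCx X) s c := by
  refine q_lim_congr (fun s j => (f s j).symm) ?_ ?_ h
  · intro s j x
    obtain ⟨x, rfl⟩ := (f s j).surjective x
    rw [← hd, AddEquiv.symm_apply_apply, AddEquiv.symm_apply_apply]
  · intro s j x
    obtain ⟨x, rfl⟩ := (f s (j + 1)).surjective x
    rw [← hr, AddEquiv.symm_apply_apply, AddEquiv.symm_apply_apply]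

end Vale.Agent.P261.H84
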