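import Vale.Agent.P261.H84.QWin
import Vale.Agent.P261.H84.StG
import Vale.Agent.P261.H273.Assembly3

/-!
# P261 (helper84): growth of the homotopy of `L_{K(n)} (S/p)` in the sparse range

* `card_couple` : orders in exact couples;
* `top_growth` : `π_t L (S/p)` has at most `p ^ (C (1 + |t|) ^ (h - 1))` elements if all these groups
  are finite;
* `growth_sparse` : the version for `L_K S`, `K` a Morava K-theory.
-/

open CategoryTheory MonoidalCategory Limits Pretriangulated MonObj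

set_option linter.unusedSectionVars false

universe v u v' u' w

namespace Vale.Agent.P261.H84

open Vale.Agent.P251.S Vale.Agent.P251.T Vale.Agent.P251.M Vale.Agent.P251.F Vale.Agent.P251
  Vale.Agent.P261

section couple

variable {C : Couple.{u, v}}

theorem q_Fil {s : ℕ} {n : ℤ} {c : ℕ} (h : QMod c (C.EZ s n) (C.EB s n)) :
    QMod c (C.Fil n s) (C.Fil n (s + 1)) := by
  have h1 := QMod.of_rel (K := C.Fil n s) (H := C.Fil n (s + 1)) (K' := C.EZ s n) (H' := C.EB s n)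
    (fun x e => ∃ y, C.pr n s y = x ∧ C.j s n y = e) h _ (QMod.refl _) ?_ ?_
  · exact h1.le (by rw [_root_.mul_one])
  · rintro _ ⟨y, rfl⟩
    exact ⟨_, C.mem_EZ.2 (C.isCocycle_j y), y, rfl, rfl⟩
  · rintro _ - _ - _ _ ⟨y₁, rfl, rfl⟩ ⟨y₂, rfl, rfl⟩ he
    rw [← map_sub] at he ⊢
    exact Couple.pr_mem_of_j _ he

theorem q_Fil_le {n : ℤ} {p m : ℕ} {c : ℕ → ℕ}
    (h : ∀ s, QMod (p ^ (c s * m)) (C.EZ s n) (C.EB s n)) (b : ℕ) :
    QMod (p ^ ((∑ s ∈ Finset.range b, c s) * m)) (C.Fil n 0) (C.Fil n b) := by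
  induction b with
  | zero => exact (QMod.refl _).le (by rw [Finset.sum_range_zero, zero_mul, pow_zero])
  | succ b ih =>
    exact (ih.trans (q_Fil (h b))).le (by rw [Finset.sum_range_succ, add_mul, pow_add])

/-- **orders in exact couples** -/
theorem card_couple {S : ℕ} (hS : C.Conv S) {n : ℤ} {p m : ℕ} {c : ℕ → ℕ}
    (h : ∀ s, QMod (p ^ (c s * m)) (C.EZ s n) (C.EB s n)) :
    Finite (C.D 0 n) ∧ Nat.card (C.D 0 n) ≤ p ^ ((∑ s ∈ Finset.range (S + 1), c s) * m) := by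
  have h1 := q_Fil_le h (S + 1)
  rw [Couple.Fil_zero, Couple.Fil_eq_bot hS n S le_rfl] at h1
  obtain ⟨h2, h3⟩ := h1.finite_bot
  rw [Nat.card_congr (AddSubgroup.topEquiv (G := C.D 0 n)).toEquiv] at h3
  exact ⟨Finite.of_equiv _ (AddSubgroup.topEquiv (G := C.D 0 n)).toEquiv, h3⟩

end couple

section model

variable {T : Type u} [Category.{v} T] [Preadditive T] [HasZeroObject T] [HasShift T ℤ]
  [∀ n : ℤ, (shiftFunctor T n).Additive] [Pretriangulated T] [MonoidalCategory T]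
  [SymmetricCategory T] [TensorTriangulated T]
  {D : Type u'} [Category.{v'} D] [Preadditive D] [HasZeroObject D] [HasShift D ℤ]
  [∀ n : ℤ, (shiftFunctor D n).Additive] [Pretriangulated D]

/-- the `E_2`-term and the cohomology of the limit complex -/
theorem q_of_model {R : T} [MonObj R] {U : UnitCof R} {Y : T} {F : T ⥤ D} [F.CommShift ℤ]
    [F.IsTriangulated] {P : D} {w : ℤ} {Tw : TowerCx.{w}} (Φ : U.CobModel Y F P w Tw)
    {s : ℕ} {n : ℤ} (h : n + (s : ℤ) = 2 * w) {c : ℕ} (h1 : QFin (limCx Tw) s c) :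
    QMod c ((((U.tow Y).map F).couple P).EZ s n) ((((U.tow Y).map F).couple P).EB s n) := by
  have h2 := QMod.of_rel (K := (((U.tow Y).map F).couple P).EZ s n)
    (H := (((U.tow Y).map F).couple P).EB s n) (fun z x => ∃ c, Φ.ψ s c = x ∧ U.qE Y F P h c = z)
    h1 _ (QMod.refl _) ?_ ?_
  · exact h2.le (by rw [_root_.mul_one])
  · intro z hz
    obtain ⟨c, hc, rfl⟩ := U.exists_cocycle_qE Y F P h z (Couple.mem_EZ _ |>.1 hz)
    exact ⟨_, (Φ.mem_Z_iff s c).2 hc, c, rfl, rfl⟩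
  · rintro _ h₁ _ h₂ _ _ ⟨c₁, rfl, rfl⟩ ⟨c₂, rfl, rfl⟩ he
    rw [← map_sub]
    refine Φ.qE_mem_EB h _ ?_
    rw [map_sub]
    exact he

end model

section top

variable {T : Type u} [Category.{v} T] [Preadditive T] [HasZeroObject T]
    [HasShift T ℤ] [∀ n : ℤ, (shiftFunctor T n).Additive] [Pretriangulated T] [IsTriangulated T]
    [MonoidalCategory T] [SymmetricCategory T] [TensorTriangulated T] [MonoidalClosed T]
    [HasCoproducts.{0} T] [HasProducts.{0} T] [StableCat T]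

variable (D : I.MUData T) {p h : ℕ} [hp : Fact p.Prime]
  {C : T} {i : 𝟙_ T ⟶ C} {δ : C ⟶ (𝟙_ T)⟦(1 : ℤ)⟧}
  (Dk : KosData D.P (p : ℤ) h (D.vs p)) (F : LocFunctor Dk.K)

/-- **growth of the homotopy of `L (S/p)`** -/
theorem top_growth (hp2 : p ≠ 2) (hh : 1 ≤ h)
    (hC : Triangle.mk ((p : ℤ) • 𝟙 (𝟙_ T)) i δ ∈ distTriang T) (hd : ¬ (p - 1) ∣ h)
    (hH : ((h * h : ℕ) : ℤ) < 2 * ((p : ℤ) - 1))
    (hf : ∀ t : ℤ, Finite ((𝟙_ T)⟦t⟧ ⟶ F.L.obj (𝟙_ T ⊗ C))) :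
    ∃ c : ℕ, ∀ t : ℤ, Finite ((𝟙_ T)⟦t⟧ ⟶ F.L.obj (𝟙_ T ⊗ C)) ∧
      Nat.card ((𝟙_ T)⟦t⟧ ⟶ F.L.obj (𝟙_ T ⊗ C)) ≤ p ^ (c * (1 + t.natAbs) ^ (h - 1)) := by
  obtain ⟨U⟩ := exists_unitCof D.R
  have hfin : ∀ (w : ℤ) (s : ℕ), (limCx (I.towerN p h w)).Fin s := fun w s => by
    have := hf (2 * w - s)
    exact lim_fin_of D Dk F hp2 hh hC hd hH (2 * w - s) w s (by ring)
  choose c hc using q_towerN p h hh hfin
  refine ⟨∑ s ∈ Finset.range (h * h + 1 + 1), c s * (1 + s) ^ (h - 1), fun t => ?_⟩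
  have hp1 : 1 ≤ p := hp.out.pos
  have key : ∀ s, QMod (p ^ ((c s * (1 + s) ^ (h - 1)) * (1 + t.natAbs) ^ (h - 1)))
      ((cpl D U C F).EZ s t) ((cpl D U C F).EB s t) := by
    intro s
    by_cases hs : s ≤ h * h ∧ 2 * ((p : ℤ) - 1) ∣ t + s
    · obtain ⟨a, ha⟩ := hs.2
      have hw : t + (s : ℤ) = 2 * (((p : ℤ) - 1) * a) := by rw [ha]; ring
      generalize ((p : ℤ) - 1) * a = w at hw
      refine (q_of_model ((grOut D U hp2 hh hC Dk F).model _) hw (hc s w)).le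
        (Nat.pow_le_pow_right hp1 ?_)
      rw [_root_.mul_assoc, ← mul_pow]
      refine Nat.mul_le_mul_left _ (Nat.pow_le_pow_left ?_ _)
      have h1 : w.natAbs ≤ t.natAbs + s := by omega
      have h2 : (1 + s) * (1 + t.natAbs) = 1 + t.natAbs + s + s * t.natAbs := by ring
      rw [h2]
      exact Nat.le_add_right_of_le (by omega)
    · exact (QMod.of_le (cpl_sparse D Dk F hp2 hh hC hd U s t hs)).le
        (Nat.one_le_pow _ _ (by omega))
  obtain ⟨h1, h2⟩ := card_couple (cpl_conv D Dk F hp2 hh hC hd U) key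
  rw [← Nat.card_congr (eD0 D U C F t).toEquiv]
  exact ⟨Finite.of_equiv _ (eD0 D U C F t).toEquiv, h2⟩

end top

open Vale.Agent.P251.I Vale.Agent.P251.St Vale.Agent.P251.St.SHCat Vale.Agent.P261.H273

/-- **growth of the homotopy of `L_K S ⊗ S/p`** -/
theorem growth_sparse {T : SHCat} (S : Susp T) {p n : ℕ} [Fact p.Prime] (hn : 1 ≤ n)
    (hs : n ^ 2 + 1 < 2 * (p - 1)) {K : RingSp T} (hK : St.IsMorava S K p n) {Z : T.C}
    {z : Hom T.one Z} (hz : St.IsLoc K.obj z) {C : T.C} {a : Hom T.one C}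
    {b : Hom C (sus T.one)} (hab : Dist (zmul (p : ℤ) (ident T.one)) a b)
    (hfg : ∀ t : ℤ, StK.FG p (Hom (sphere T t) Z)) : StK.Growth p (n - 1) (ten Z C) := by
  have := locallySmall_self.{0} T.C
  have hp := ne_two_of_sparse hn hs
  have hp1 : 1 ≤ p := (Fact.out : p.Prime).one_lt.le
  have hab' : Triangle.mk ((p : ℤ) • 𝟙 (𝟙_ T.C)) a b ∈ distTriang T.C := hab
  obtain ⟨D, H⟩ := M.MU_univ T.C S.toSpaceFunctor (M.lineIso S.toSpaceFunctor)
  obtain ⟨Dk⟩ := exists_kosData D.P (p : ℤ) n (D.vs p)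
  obtain ⟨F⟩ := Vale.Agent.P251.Z.nonempty_locFunctor' Dk.K
  obtain ⟨e⟩ := exists_iso_of_isLoc F
    (fun W hW => (acyclic_morava_iff S hp H hab' hn hK Dk W).2 hW)
    (fun W hW => (acyclic_morava_iff S hp H hab' hn hK Dk W).1 hW) ((isLoc_iff K.obj z).1 hz)
  obtain ⟨g⟩ := exists_tensIso hab' F e
  have hs' : ((n ^ 2 : ℕ) : ℤ) + 1 < 2 * ((p : ℤ) - 1) := by
    have h : ((n ^ 2 + 1 : ℕ) : ℤ) < ((2 * (p - 1) : ℕ) : ℤ) := by exact_mod_cast hs
    rw [Nat.cast_add, Nat.cast_mul, Nat.cast_sub hp1] at h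
    simpa using h
  obtain ⟨c, hc⟩ := top_growth D Dk F hp hn hab' (not_dvd_of_sparse hn hs)
    (by rw [← pow_two]; linarith) fun t => finite_of_fg_iso F hab' e t (hfg t) (hfg (t - 1))
  refine ⟨c, fun t => ?_⟩
  have h1 := (hc t).1
  let e1 : ((𝟙_ T.C)⟦t⟧ ⟶ F.L.obj (𝟙_ T.C ⊗ C)) ≃ Hom (sphere T t) (ten Z C) := homEquiv g _
  rw [← Nat.card_congr e1]
  exact ⟨Finite.of_equiv _ e1, (hc t).2⟩

end Vale.Agent.P261.H84
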