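import Vale.Agent.P261.H84.QMod
import Vale.Agent.P261.H84.Growth

/-!
# P261 (helper84): growth of the cohomology of the towers `towerN p h w`

The quantitative version of the window argument: if the cohomology is finite in all weights, then
its order in weight `w` is at most `p ^ (C (1 + |w|) ^ (h - 1))`.
-/

set_option linter.unusedSectionVars false

namespace Vale.Agent.P261.H84

open Vale.Agent.P217 Vale.Agent.P251.F Vale.Agent.P251.S LawRing

/-- polynomial growth of the exponents -/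
def PG (p e : ℕ) (a : ℤ → ℕ) : Prop := ∃ C : ℕ, ∀ t : ℤ, a t ≤ p ^ (C * (1 + t.natAbs) ^ e)

theorem PG.one {p e : ℕ} : PG p e fun _ => 1 := ⟨0, fun t => by rw [zero_mul, pow_zero]⟩

theorem sum_bound {p d : ℕ} (hp : 2 ≤ p) {a : ℤ → ℕ} {t : ℤ} (h0 : 0 ≤ t) (h1 : t < d) :
    a t ≤ p ^ (∑ i ∈ Finset.range d, a i) := by
  obtain ⟨k, rfl⟩ := Int.eq_ofNat_of_zero_le h0
  have h2 : a k ≤ ∑ i ∈ Finset.range d, a i :=
    Finset.single_le_sum (f := fun i : ℕ => a i) (fun _ _ => Nat.zero_le _)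
      (Finset.mem_range.2 (by exact_mod_cast h1))
  exact h2.trans (Nat.lt_pow_self (by omega)).le

/-- one step -/
theorem pg_step {p : ℕ} (hp : 2 ≤ p) {d e : ℕ} (hd : 0 < d) {a b₁ b₂ : ℤ → ℕ}
    (h1 : ∀ t : ℤ, a t ≤ b₁ t * a (t - d)) (h2 : ∀ t : ℤ, a (t - d) ≤ a t * b₂ t)
    (hb₁ : PG p e b₁) (hb₂ : PG p e b₂) : PG p (e + 1) a := by
  obtain ⟨C₁, hC₁⟩ := hb₁
  obtain ⟨C₂, hC₂⟩ := hb₂
  have hp1 : 1 ≤ p := by omega
  have hb : ∀ t : ℤ, max (b₁ t) (b₂ (t - 1)) ≤ p ^ ((C₁ + C₂ * 2 ^ e) * (1 + t.natAbs) ^ e) := by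
    intro t
    refine max_le ((hC₁ t).trans (Nat.pow_le_pow_right hp1 (Nat.mul_le_mul_right _
      (Nat.le_add_right _ _)))) ((hC₂ _).trans (Nat.pow_le_pow_right hp1 ?_))
    calc C₂ * (1 + (t - 1).natAbs) ^ e ≤ C₂ * (2 * (1 + t.natAbs)) ^ e :=
          Nat.mul_le_mul_left _ (Nat.pow_le_pow_left (by omega) e)
      _ = C₂ * 2 ^ e * (1 + t.natAbs) ^ e := by rw [mul_pow, _root_.mul_assoc]
      _ ≤ _ := Nat.mul_le_mul_right _ (Nat.le_add_left _ _)
  have key := step_bound (p := p) hp1 (a := a) (b := fun t => max (b₁ t) (b₂ (t - 1)))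
    (M := ∑ i ∈ Finset.range d, a i) hd
    (fun t => (h1 t).trans (by
      rw [mul_comm]
      exact Nat.mul_le_mul_left _ (le_max_left _ _)))
    (fun t => (h2 t).trans (by
      rw [mul_comm]
      refine Nat.mul_le_mul_right _ ?_
      change b₂ t ≤ max (b₁ (t + 1)) (b₂ (t + 1 - 1))
      rw [add_sub_cancel_right]
      exact le_max_right _ _))
    (fun t h0 h1 => sum_bound hp h0 h1) hb
  generalize hM : (∑ i ∈ Finset.range d, a i) = M at key
  generalize C₁ + C₂ * 2 ^ e = C at key hb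
  refine ⟨M + C * (2 + d) ^ e, fun t => (key _ t le_rfl).trans
    (Nat.pow_le_pow_right hp1 ?_)⟩
  generalize t.natAbs = m
  have h1 : 1 ≤ (1 + m) ^ (e + 1) := Nat.one_le_pow _ _ (by omega)
  have h2 : (1 + m) ^ (e + 1) = (1 + m) ^ e * (1 + m) := pow_succ _ _
  have h3 : m * (C * (2 + d) ^ e * (1 + m) ^ e) ≤ C * (2 + d) ^ e * (1 + m) ^ (e + 1) := by
    rw [h2]
    calc m * (C * (2 + d) ^ e * (1 + m) ^ e) ≤ (1 + m) * (C * (2 + d) ^ e * (1 + m) ^ e) :=
          Nat.mul_le_mul_right _ (by omega)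
      _ = _ := by ring
  calc M + m * (C * (2 + d) ^ e * (1 + m) ^ e)
      ≤ M * (1 + m) ^ (e + 1) + C * (2 + d) ^ e * (1 + m) ^ (e + 1) :=
        Nat.add_le_add (Nat.le_mul_of_pos_right _ h1) h3
    _ = _ := by ring

/-- the periodic case -/
theorem pg_base {p : ℕ} (hp : 2 ≤ p) {d : ℕ} (hd : 0 < d) {a : ℤ → ℕ}
    (h1 : ∀ t : ℤ, a t ≤ a (t - d)) (h2 : ∀ t : ℤ, a (t - d) ≤ a t) : PG p 0 a := by
  have key := step_bound (p := p) (by omega) (a := a) (b := fun _ => 1) (C := 0) (e := 0)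
    (M := ∑ i ∈ Finset.range d, a i) hd (fun t => by rw [mul_one]; exact h1 t)
    (fun t => by rw [one_mul]; exact h2 t) (fun t h0 h1 => sum_bound hp h0 h1)
    (fun t => by rw [zero_mul, pow_zero])
  refine ⟨∑ i ∈ Finset.range d, a i, fun t => (key _ t le_rfl).trans
    (Nat.pow_le_pow_right (by omega) ?_)⟩
  simp

section

variable (p : ℕ) [hp : Fact p.Prime] (h : ℕ)
  (N : ℕ → Type) [∀ j, CommRing (N j)] [∀ j, LawRing (N j)]
  (r : ∀ j, N (j + 1) →+* N j) (hr : ∀ j, IsLawHom (r j))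

/-- the order of the cohomology modulo `(v_0, …, v_{k-1})` -/
noncomputable def ord (k s : ℕ) (w : ℤ) : ℕ :=
  sInf {c | QFin (limCx (quoTow p k N r hr w)) s c}

variable {p h N r hr}

theorem ord_spec {k : ℕ} {w : ℤ} (hf : FinQ p N r hr k w) (s : ℕ) :
    QFin (limCx (quoTow p k N r hr w)) s (ord p N r hr k s w) :=
  Nat.sInf_mem (QMod.of_finMod (hf s))

theorem ord_le {k s : ℕ} {w : ℤ} {c : ℕ} (hf : QFin (limCx (quoTow p k N r hr w)) s c) :
    ord p N r hr k s w ≤ c := Nat.sInf_le hf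

variable (hs : ∀ j, Function.Surjective (r j))

include hs

theorem cast_pow_sub_one (k : ℕ) : ((p ^ k - 1 : ℕ) : ℤ) = (p ^ k : ℤ) - 1 := by
  have h1 : 1 ≤ p ^ k := Nat.one_le_pow _ _ hp.out.pos
  push_cast [Nat.cast_sub h1]
  ring

/-- the top quotient is zero -/
theorem q_zero {k : ℕ} (hz : ∀ j, IK p k (N j) = ⊤) (w : ℤ) (s : ℕ) :
    QFin (limCx (quoTow p k N r hr w)) s 1 := by
  refine QMod.of_le fun x _ => ?_
  have hx : x = 0 := by
    refine Subtype.ext (funext fun j => Subtype.ext ?_)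
    have h1 : Subsingleton (QK p k (N j)) := Ideal.Quotient.subsingleton_iff.2 (hz j)
    have h2 : Subsingleton (Cob (QK p k (N j)) s) :=
      inferInstanceAs (Subsingleton (MvPolynomial _ (QK p k (N j))))
    exact Subsingleton.elim _ _
  rw [hx]
  exact AddSubgroup.zero_mem _

/-- **growth of the cohomology** -/
theorem pg_ord (hreg : ∀ k, 1 ≤ k → k ≤ h → ∀ j (x : N (j + 1)),
      vv p k (LawRing.law (N := N (j + 1))) * x ∈ IK p k (N (j + 1)) → r j x ∈ IK p k (N j))
    (hz : ∀ j, IK p (h + 1) (N j) = ⊤) {k : ℕ} (hk : 1 ≤ k) (hkh : k ≤ h)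
    (hfin : ∀ w, FinQ p N r hr k w) (s : ℕ) : PG p (h - k) (ord p N r hr k s) := by
  induction hkh using Nat.decreasingInduction generalizing s with
  | self =>
    have E := fun w => (vSeq p h N r hr hs (hreg h hk le_rfl) w).shortEx
    have hpos : 0 < p ^ h - 1 := by
      have : 1 < p ^ h := Nat.one_lt_pow (by omega) hp.out.one_lt
      omega
    rw [Nat.sub_self]
    refine pg_base hp.out.two_le hpos (fun t => ?_) fun t => ?_
    · rw [cast_pow_sub_one hs]
      refine (ord_le (q_mid (E t) (ord_spec (hfin _) s) (q_zero hs hz t s))).trans ?_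
      rw [one_mul]
    · rw [cast_pow_sub_one hs]
      rcases s with _ | s
      · exact ord_le (q_left_zero (E t) (ord_spec (hfin _) 0))
      · refine (ord_le (q_left (E t) (q_zero hs hz t s) (ord_spec (hfin _) (s + 1)))).trans ?_
        rw [mul_one]
  | of_succ k hkh ih =>
    have E := fun w => (vSeq p k N r hr hs (hreg k hk hkh.le) w).shortEx
    have hpos : 0 < p ^ k - 1 := by
      have : 1 < p ^ k := Nat.one_lt_pow (by omega) hp.out.one_lt
      omega
    have h1 : ∀ w, FinQ p N r hr (k + 1) w := fun w s =>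
      (E w).fin_right (hfin w s) (hfin _ (s + 1))
    have ih' := ih (by omega) h1
    have h2 := pg_step hp.out.two_le hpos (e := h - (k + 1)) (a := ord p N r hr k s)
      (b₁ := ord p N r hr (k + 1) s)
      (b₂ := fun w => if s = 0 then 1 else ord p N r hr (k + 1) (s - 1) w) (fun t => ?_)
      (fun t => ?_) (ih' s) ?_
    · rwa [show h - (k + 1) + 1 = h - k by omega] at h2
    · rw [cast_pow_sub_one hs]
      exact ord_le (q_mid (E t) (ord_spec (hfin _) s) (ord_spec (h1 t) s))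
    · rw [cast_pow_sub_one hs]
      rcases s with _ | s
      · rw [if_pos rfl, mul_one]
        exact ord_le (q_left_zero (E t) (ord_spec (hfin _) 0))
      · rw [if_neg (Nat.succ_ne_zero s), Nat.add_sub_cancel]
        exact ord_le (q_left (E t) (ord_spec (h1 t) s) (ord_spec (hfin _) (s + 1)))
    · rcases s with _ | s
      · simp only [if_true]
        exact PG.one
      · simp only [Nat.succ_ne_zero, if_false, Nat.add_sub_cancel]
        exact ih' s

end

section

variable (p : ℕ) [hp : Fact p.Prime] (h : ℕ)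

/-- the towers modulo `v_0 = p` -/
theorem q_one {w : ℤ} {s c : ℕ} (H : QFin (limCx (quoTow p 1 (NT p h) (rT p h) (hrT p h) w)) s c) :
    QFin (limCx (Vale.Agent.P251.I.towerN p h w)) s c := by
  have hb := fun j => bijective_mk p (k := 1) (N := NT p h j) (IK_one_NN p h (j + 1))
  have hl := fun j => isLawHom_mk_QK p 1 (NT p h j)
  have hd : ∀ (s j : ℕ) (x : (Vale.Agent.P251.I.towerN p h w).C s j),
      wtEquiv (hl j) (hb j) (s + 1) w ((Vale.Agent.P251.I.towerN p h w).d s j x) =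
        (quoTow p 1 (NT p h) (rT p h) (hrT p h) w).d s j (wtEquiv (hl j) (hb j) s w x) :=
    fun s j x => Subtype.ext (Cob.mapRing_d (hl j) (show Cob.wt (NT p h j) s w from x).1)
  have hr : ∀ (s j : ℕ) (x : (Vale.Agent.P251.I.towerN p h w).C s (j + 1)),
      wtEquiv (hl j) (hb j) s w ((Vale.Agent.P251.I.towerN p h w).r s j x) =
        (quoTow p 1 (NT p h) (rT p h) (hrT p h) w).r s j
          (wtEquiv (hl (j + 1)) (hb (j + 1)) s w x) := by
    intro s j x
    apply Subtype.ext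
    change Cob.mapRing _ s (Cob.mapRing _ s (show Cob.wt (NT p h (j + 1)) s w from x).1) =
      Cob.mapRing _ s (Cob.mapRing _ s (show Cob.wt (NT p h (j + 1)) s w from x).1)
    rw [Cob.mapRing_mapRing, Cob.mapRing_mapRing]
    rfl
  exact q_lim_congr_symm (fun s j => wtEquiv (hl j) (hb j) s w) hd hr H

/-- **Growth of the cohomology of the towers `towerN`.** -/
theorem q_towerN (hh : 1 ≤ h)
    (hfin : ∀ w s, (limCx (Vale.Agent.P251.I.towerN p h w)).Fin s) (s : ℕ) :
    ∃ C : ℕ, ∀ w : ℤ, QFin (limCx (Vale.Agent.P251.I.towerN p h w)) s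
      (p ^ (C * (1 + w.natAbs) ^ (h - 1))) := by
  have h1 : ∀ w, FinQ p (NT p h) (rT p h) (hrT p h) 1 w := fun w =>
    (finQ_one_iff p h w).2 (hfin w)
  obtain ⟨C, hC⟩ := pg_ord (p := p) (h := h) (N := NT p h) (r := rT p h) (hr := hrT p h)
    (fun j => NN_red_surjective p h _) (fun k hk _ j x hx => reg_NN p h (by omega) x hx)
    (fun j => Ideal.eq_top_of_isUnit_mem _ (vv_mem_Ih (Nat.lt_succ_self h) _)
      (isUnit_vh p h (j + 1))) le_rfl hh h1 s
  exact ⟨C, fun w => q_one p h ((ord_spec (h1 w) s).le (hC w))⟩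

end

end Vale.Agent.P261.H84
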