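import Vale.Agent.P221.H377.UniM
import Vale.Agent.P251.St.ToChrom
import Vale.Agent.P251.Z.CompA
import Vale.Agent.P257.H80.HazVV

/-!
# P261 (helper84): the ring map from the Brown-Peterson spectrum to a Morava `K`-theory

`exists_ringMap` : for a Morava `K`-theory `K` of height `n ≥ 1` and a Brown-Peterson spectrum `P`
there is a ring map `P ⟶ K` which carries `v_n` to a unit.
-/

open CategoryTheory MonoidalCategory MonObj Limits Pretriangulated

set_option linter.unusedSectionVars false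

noncomputable section

namespace Vale.Agent.P261.H84

open Vale.Agent.P251 Vale.Agent.P251.S Vale.Agent.P251.T Vale.Agent.P251.M Vale.Agent.P251.F
  Vale.Agent.P251.I EvenSpheres Vale.Agent.P257.H702 Vale.Agent.P257.H80
  Vale.Agent.P251.St Vale.Agent.P251.St.SHCat Vale.Agent.P257.St
open Vale.Agent.P221 (H924.exists_mu)
open Vale.Agent.P221.H395.Fp (vcl)

variable {T : SHCat} {S : Susp T} {p n : ℕ}

/-- an object killed by `p` is `p`-local -/
theorem locO_of_char [hp : Fact p.Prime] {K : T.C} (h : (p : ℤ) • 𝟙 K = 0) : LocO p K := by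
  intro m hm
  have h1 : IsCoprime (p : ℤ) m :=
    (Prime.coprime_iff_not_dvd (Nat.prime_iff_prime_int.1 hp.out)).2 hm
  obtain ⟨a, b, hab⟩ := h1
  have h2 : m • (b • 𝟙 K) = 𝟙 K := by
    have h3 : (a * p + b * m) • 𝟙 K = 𝟙 K := by rw [hab, one_smul]
    rw [add_smul, mul_smul, h, smul_zero, zero_add, mul_comm, mul_smul] at h3
    exact h3
  refine ⟨b • 𝟙 K, ?_, ?_⟩
  · rw [Preadditive.zsmul_comp, Category.id_comp, h2]
  · rw [Preadditive.comp_zsmul, Category.comp_id, h2]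

/-- a ring spectrum of characteristic `p` is killed by `p` -/
theorem zsmul_id_of_char {K : T.C} [MonObj K] (h : (p : ℤ) • η[K] = 0) : (p : ℤ) • 𝟙 K = 0 := by
  have h1 : (λ_ K).inv ≫ η[K] ▷ K ≫ μ[K] = 𝟙 K := by
    rw [MonObj.one_mul, Iso.inv_hom_id]
  have h2 : ((p : ℤ) • η[K]) ▷ K = (p : ℤ) • (η[K] ▷ K) := (tensorRight K).map_zsmul ..
  have h3 : (0 : 𝟙_ T.C ⟶ K) ▷ K = 0 := (tensorRight K).map_zero _ _
  rw [← h1, ← Preadditive.comp_zsmul, ← Preadditive.zsmul_comp, ← h2, h, h3, zero_comp,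
    comp_zero]

theorem exists_ringMap [hp : Fact p.Prime] (hn : 1 ≤ n) {K : RingSp T} (hK : IsMorava S K p n)
    {P : RingSp T} {o : St.Oriented S P} {φ : GHom S p P} (hφ : IsBrownPeterson p o φ) :
    ∃ (g : P.obj ⟶ K.obj) (_ : IsMonHom g),
      IsUnit (HRing.map (E := stdEven T.C) g (vcl φ n)) := by
  obtain ⟨D, hD, hA, ⟨U⟩⟩ := H924.exists_mu S.toSpaceFunctor (P251.M.lineIso S.toSpaceFunctor)
  obtain ⟨m, rfl⟩ : ∃ m, n = m + 1 := ⟨n - 1, by omega⟩
  obtain ⟨_, oK, hKp⟩ := isMorava_of S K hK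
  have hp1 : 1 < p := hp.out.one_lt
  obtain ⟨N, hN⟩ : ∃ N, N + 1 = p ^ (m + 1) :=
    ⟨p ^ (m + 1) - 1, Nat.sub_add_cancel (Nat.one_le_pow _ _ (by omega))⟩
  obtain ⟨u, hu, v, w, h1, h2, h3⟩ := Z.exists_hom_of_morava hD hp1 oK hKp N hN
  have hun : IsUnit (vv p (m + 1) (lawOf u)) := by
    change IsUnit (vv p (m + 1) (D.law.map (HRing.map (E := stdEven T.C) u)))
    rw [h3]
    exact Z.isUnit_of_inv (asIso (Z.sph (P251.M.lineIso S.toSpaceFunctor) N)) v w h1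
  have hKloc : LocO p K.obj := locO_of_char (zsmul_id_of_char hKp.char)
  obtain ⟨Rp, i1, i2, l, i3, B', i4, i5, s, r, i6, i7, hl, hsr, hb'⟩ := exists_bp (p := p) hD
  obtain ⟨b, hb, ho⟩ := U.exists_mapS o
  have hbP : IsBPMon p b := isBPMon_of_isBrownPeterson ptypOut hD U ptypIn hφ ho
  obtain ⟨f, f', i8, i9, hfg, hgf, hf⟩ := hbP.exists_iso hb'
  obtain ⟨u', hu', hlu⟩ := hl.existsUnique_monHom hKloc u
  obtain ⟨Φ, hΦ1, hΦ2⟩ := ptypOut P o φ hφ.typ
  have h4 : lawOf b = (haz p).map Φ := by rw [← hΦ2, U.lawS_eq ho]; rfl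
  have h5 : lawOf (b ≫ f ≫ s ≫ u') =
      (haz p).map ((HRing.map (E := stdEven T.C) (f ≫ s ≫ u')).comp Φ) := by
    rw [lawOf_comp, h4, Law.map_map]
  have h6 := ser_smul u (b ≫ f ≫ s ≫ u')
  have h7 : ∀ i < m + 1, vv p i (lawOf (b ≫ f ≫ s ≫ u')) = 0 := by
    rw [← h6]
    exact (vv_smul_of_zero p (m + 1) _ _ h2).1
  have h8 : IsUnit (vv p (m + 1) (lawOf (b ≫ f ≫ s ≫ u'))) := by
    rw [← h6]
    have h9 := (vv_smul_of_zero p (m + 1) (lawOf u) (ser u (b ≫ f ≫ s ≫ u')) h2).2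
    refine isUnit_of_mul_isUnit_left (y := (ser u (b ≫ f ≫ s ≫ u')).c 0 ^ (p ^ (m + 1))) ?_
    rw [h9]
    exact (InvSeries.isUnit _).mul hun
  have hp0 : ((p : ℕ) : HRing (stdEven T.C) K.obj) = 0 := by
    rw [← vv_zero p (lawOf (b ≫ f ≫ s ≫ u'))]
    exact h7 0 (Nat.succ_pos m)
  rw [h5] at h7 h8
  have h10 : ∀ j < m, ((HRing.map (E := stdEven T.C) (f ≫ s ≫ u')).comp Φ)
      (MvPolynomial.X j) = 0 := by
    intro j
    induction j using Nat.strong_induction_on with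
    | _ j ih =>
      intro hj
      rw [← vv_haz_of_zero p hp0 (k := j) fun i hi => ih i hi (by omega)]
      exact h7 (j + 1) (by omega)
  refine ⟨f ≫ s ≫ u', inferInstance, ?_⟩
  have h11 := h8
  rw [vv_haz_of_zero p hp0 h10, RingHom.comp_apply] at h11
  have h12 : Φ (MvPolynomial.X m) = vcl φ (m + 1) := hΦ1 _ ⟨vEl p (m + 1), vEl_mem p (m + 1)⟩
  rwa [h12] at h11

end Vale.Agent.P261.H84
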