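import Vale.Agent.P221.St.Mc
import Vale.Agent.P261.H273.Alg

/-!
# P261, statement layer: local objects, existence of generalised Moore spectra, growth

Definitions on top of the ones of `P251/St/Chrom.lean` and `P221/St/Mc.lean`.
-/

namespace Vale.Agent.P261.StT

open Vale.Agent.P251.St Vale.Agent.P251.St.SHCat Vale.Agent.P257.St Vale.Agent.P221.StM

variable {T : SHCat}

/-- `Y` is `E`-local: every map to `Y` from an `E`-acyclic object is zero. -/
def IsLocal (E Y : T.C) : Prop := ∀ W : T.C, Acyclic E W → ∀ g : Hom W Y, g = nul W Y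

/-- There is a generalised Moore spectrum of type `n + 1`. -/
def HasMoore (S : Susp T) (p n : ℕ) : Prop :=
  ∃ (P : RingSp T) (o : Oriented S P) (φ : GHom S p P) (V : T.C),
    IsBrownPeterson p o φ ∧ IsTower φ (fun _ _ => True) (n + 1) V

/-- The group `π_t W` is finite, of order at most `p ^ (c (1 + |t|) ^ d)`, for all `t`, for a
constant `c`. -/
def Growth (p d : ℕ) (W : T.C) : Prop :=
  ∃ c : ℕ, ∀ t : ℤ, Finite (Pi t W) ∧ Nat.card (Pi t W) ≤ p ^ (c * (1 + t.natAbs) ^ d)

end Vale.Agent.P261.StT
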