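import Vale.Agent.P261.H84.St
import Vale.Agent.P221.H377.UniM
import Vale.Agent.P257.H604.SThaz
import Vale.Agent.P257.Main.Final

/-!
# P261 (helper84): generalised Moore spectra from Smith-Toda complexes

* `isTower_of_sTow` : a tower of Smith-Toda complexes is a tower of generalised Moore spectra;
* `hasMoore_of_le` : generalised Moore spectra of type `n + 1` exist for `n ≤ 4`, `p ≥ 11`.
-/

open CategoryTheory MonoidalCategory MonObj Limits Pretriangulated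

set_option linter.unusedSectionVars false

noncomputable section

namespace Vale.Agent.P261.H84

open Vale.Agent.P251 Vale.Agent.P251.T Vale.Agent.P251.M Vale.Agent.P251.F
  Vale.Agent.P251.I EvenSpheres Vale.Agent.P257.H702 Vale.Agent.P257.H80 Vale.Agent.P257.H314
  Vale.Agent.P251.St Vale.Agent.P251.St.SHCat Vale.Agent.P257.St
open Vale.Agent.P221

section lib

universe v u

variable {T : Type u} [Category.{v} T] [Preadditive T] [HasZeroObject T] [HasShift T ℤ]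
  [∀ n : ℤ, (shiftFunctor T n).Additive] [Pretriangulated T]
  [MonoidalCategory T] [SymmetricCategory T] [TensorTriangulated T]

/-- the multiplication by `w` on a class `a · io` -/
theorem rhs_mul {K : T} [MonObj K] {A S₀ W : T} (io : 𝟙_ T ⟶ W) (a : A ⟶ K) (w : S₀ ⟶ K) :
    (hcls io a) ▷ S₀ ≫ (shuf K W S₀).hom ≫ (α_ K S₀ W).inv ≫ ((𝟙 K ⊗ₘ w) ≫ μ[K]) ▷ W =
      hcls io (pr a w) := by
  rw [← Category.assoc, hcls_shuf]
  unfold hcls Vale.Agent.P257.H702.pr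
  rw [id_tensorHom, MonoidalCategory.tensorHom_def]
  simp only [MonoidalCategory.whiskerLeft_comp, Category.assoc]
  congr 1
  rw [associator_inv_naturality_right_assoc, whisker_exchange]
  simp only [comp_whiskerRight, Category.assoc]
  rw [rightUnitor_inv_naturality_assoc, rightUnitor_inv_naturality_assoc]
  simp

/-- a self map which is `w` on the bottom cell, up to elements which act as zero -/
theorem mul_of_bottom {K : T} [MonObj K] {S₀ V : T} [IsInv S₀] (io : 𝟙_ T ⟶ V) (v w : S₀ ⟶ K)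
    (f : S₀ ⊗ V ⟶ V)
    (hhur : ((ρ_ S₀).inv ≫ S₀ ◁ io ≫ f) ≫ (λ_ V).inv ≫ η[K] ▷ V = hcls io v)
    {A A' : T} (θ : A ≅ A' ⊗ S₀) (hvw : ∀ a : A' ⟶ K, hcls io (pr a v) = hcls io (pr a w))
    (hs : ∀ y : A' ⟶ K ⊗ V, ∃ a : A' ⟶ K, y = hcls io a) (y : A ⟶ K ⊗ (S₀ ⊗ V)) :
    y ≫ K ◁ f = y ≫ (α_ K S₀ V).inv ≫ ((𝟙 K ⊗ₘ w) ≫ μ[K]) ▷ V := by
  obtain ⟨z, rfl⟩ := exists_desus θ y
  obtain ⟨a, rfl⟩ := hs z
  simp only [Category.assoc]
  rw [hcls_shuf_comp io a v f hhur, rhs_mul, hvw]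

end lib

variable {T : SHCat} {S : Susp T} {p : ℕ}

/-- **towers** -/
theorem isTower_of_sTow [hp : Fact p.Prime] (h2 : p ≠ 2) {D : MUData T.C}
    (hD : MUUniv (P251.M.lineIso S.toSpaceFunctor) D) {C : T.C} {iC : 𝟙_ T.C ⟶ C}
    {δC : C ⟶ (𝟙_ T.C)⟦(1 : ℤ)⟧}
    (hC : Triangle.mk ((p : ℤ) • 𝟙 (𝟙_ T.C)) iC δC ∈ distTriang T.C)
    {P : RingSp T} {φ : GHom S p P} {b : D.R ⟶ P.obj} [IsMonHom b] (hb : IsBPMon p b)
    {Φ : MvPolynomial ℕ ℤ →+* HRing (stdEven T.C) P.obj} (hlaw : lawOf b = (haz p).map Φ)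
    (hΦ : ∀ (n : ℕ) (x : VPoly p n), Φ (x : MvPolynomial ℕ ℤ) =
      HRing.of (stdEven T.C) P.obj n ((isoE S n).inv ≫ φ n x))
    {h : ℕ} {V : T.C} {i : 𝟙_ T.C ⟶ V} (H : STow D p h i) :
    1 ≤ h ∧ StM.IsTower φ (fun _ _ => True) h V := by
  have hp1 : 1 ≤ p := hp.out.one_le
  induction H with
  | @one C' iC' δ' hC' =>
    refine ⟨le_rfl, StM.IsTower.base (i := 1) trivial one_pos ?_ (g := iC') (h := δ')⟩
    change Triangle.mk (((p : ℤ) ^ 1) • 𝟙 (𝟙_ T.C)) iC' δ' ∈ distTriang T.C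
    rw [pow_one]
    exact hC'
  | @succ h V V' i H x hx f hf j δ hΔ ih =>
    refine ⟨by omega, ?_⟩
    obtain ⟨hh, ih⟩ := ih
    have hcyc : CycK (vK D p b) h i := genK_of_sTow H P.obj b (hb.reg hD h2 hC h)
    let e : S.obj (Cn (p ^ h - 1)) ≅ Sv T.C p h := spI S hp1 h
    let f' : S.obj (Cn (p ^ h - 1)) ⊗ V ⟶ V := e.hom ▷ V ≫ f
    let w : S.obj (Cn (p ^ h - 1)) ⟶ P.obj := hazV φ h
    -- the difference of the two elements
    have hdiff : InI (vK D p b) h (vK D p b h - e.inv ≫ w) := by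
      obtain ⟨k, rfl⟩ : ∃ k, h = k + 1 := ⟨h - 1, by omega⟩
      rw [inI_iff_mem_span (w := fun i => (p ^ i : ℤ) - 1)]
      have h3 : HRing.of (stdEven T.C) P.obj ((p ^ (k + 1) : ℤ) - 1)
          (vK D p b (k + 1) - e.inv ≫ w) =
          vv p (k + 1) (lawOf b) - Φ (vEl p (k + 1)) := by
        rw [vv_lawOf, ← Vale.Agent.P257.H604.of_hazV hp1 hΦ (k + 1)]
        exact map_sub (DirectSum.of ((stdEven T.C).Gr P.obj) _) _ _
      rw [h3]
      have h4 : Ideal.span (Set.range fun j : Fin (k + 1) =>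
          HRing.of (stdEven T.C) P.obj ((p ^ (j : ℕ) : ℤ) - 1) (vK D p b j)) =
          Ih p (k + 1) (lawOf b) := by
        simp only [← vv_lawOf]
        exact Vale.Agent.P257.H604.span_vv p (lawOf b) (k + 1)
      rw [h4, hlaw, Ih_haz]
      exact vv_haz_sub_mem p Φ k
    have hact := sphAct (T := T.C) p
    have hinv : IsInv (S.obj (Cn (p ^ h - 1))) := by
      have h5 := hact.inv h
      exact IsInv.of_inverse (L' := (stdEven T.C).S (-((p ^ h : ℤ) - 1)))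
        (whiskerRightIso e _ ≪≫ (stdEven T.C).mu _ _ 0 (by ring) ≪≫ (stdEven T.C).zero.symm)
    have hhur : ((ρ_ (S.obj (Cn (p ^ h - 1)))).inv ≫ S.obj (Cn (p ^ h - 1)) ◁ i ≫ f') ≫
        (λ_ V).inv ≫ η[P.obj] ▷ V = hcls i (e.hom ≫ vK D p b h) := by
      rw [hcls_comp, ← hur_of_det hx b, ← Category.assoc e.hom]
      congr 1
      change (ρ_ _).inv ≫ _ ◁ i ≫ e.hom ▷ V ≫ f = _
      rw [whisker_exchange_assoc, ← rightUnitor_inv_naturality_assoc, hf, Iso.inv_hom_id_assoc]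
    refine StM.IsTower.step (k := p ^ h - 1) (i := 1) (f := f') (g := j)
      (h := δ ≫ (e.inv ▷ V)⟦(1 : ℤ)⟧') (w := ⟨vEl p h, vEl_mem p h⟩) ih trivial one_pos
      (pow_one _).symm ?_ ?_
    · intro m y
      obtain ⟨A', hA', ⟨θ⟩⟩ := hact.desus h ((𝟙_ T.C)⟦m⟧) ⟨m, ⟨Iso.refl _⟩⟩
      let θ' : (𝟙_ T.C)⟦m⟧ ≅ A' ⊗ S.obj (Cn (p ^ h - 1)) := θ ≪≫ whiskerLeftIso A' e.symm
      refine mul_of_bottom i (e.hom ≫ vK D p b h) w f' hhur θ' (fun a => ?_)
        (fun z => hcyc.1 A' hA' z) y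
      have hsph : IsSph (A' ⊗ S.obj (Cn (p ^ h - 1))) := ⟨m, ⟨θ'.symm⟩⟩
      rw [← sub_eq_zero, ← hcls_sub, hcyc.2 _ hsph]
      have h6 : pr a (e.hom ≫ vK D p b h) - pr a w =
          (a ▷ S.obj (Cn (p ^ h - 1)) ≫ P.obj ◁ e.hom) ≫
            P.obj ◁ (vK D p b h - e.inv ≫ w) ≫ μ[P.obj] := by
        have h7 : e.hom ≫ (vK D p b h - e.inv ≫ w) = e.hom ≫ vK D p b h - w := by
          rw [Preadditive.comp_sub, Iso.hom_inv_id_assoc]
        have h8 : P.obj ◁ (e.hom ≫ vK D p b h - w) =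
            P.obj ◁ (e.hom ≫ vK D p b h) - P.obj ◁ w := (tensorLeft P.obj).map_sub
        rw [Category.assoc, ← MonoidalCategory.whiskerLeft_comp_assoc, h7, h8,
          Preadditive.sub_comp, Preadditive.comp_sub]
        simp only [Vale.Agent.P257.H702.pr, MonoidalCategory.tensorHom_def, Category.assoc]
      rw [h6]
      exact hdiff.mul_left _
    · exact isomorphic_distinguished _ hΔ _ (Triangle.isoMk _ _ (whiskerRightIso e V) (Iso.refl _)
        (Iso.refl _) (by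
          change f' ≫ 𝟙 V = e.hom ▷ V ≫ f
          rw [Category.comp_id]) (by
          change j ≫ 𝟙 V' = 𝟙 V ≫ j
          rw [Category.comp_id, Category.id_comp]) (by
          change (δ ≫ (e.inv ▷ V)⟦(1 : ℤ)⟧') ≫ (e.hom ▷ V)⟦(1 : ℤ)⟧' = 𝟙 V' ≫ δ
          rw [Category.assoc, ← Functor.map_comp, inv_hom_whiskerRight,
            CategoryTheory.Functor.map_id, Category.comp_id, Category.id_comp]))

theorem STow.prev {D : MUData T.C} {h : ℕ} (hh : 1 ≤ h) {V : T.C} {i : 𝟙_ T.C ⟶ V}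
    (H : STow D p (h + 1) i) : ∃ (V' : T.C) (i' : 𝟙_ T.C ⟶ V'), STow D p h i' := by
  generalize hk : h + 1 = k at H
  cases H with
  | one hC => omega
  | @succ h' V V' i H x hx f hf j δ hΔ =>
    obtain rfl : h = h' := by omega
    exact ⟨_, _, H⟩

/-- **generalised Moore spectra of type `n + 1` exist** for `n ≤ 4`, `p ≥ 11` -/
theorem hasMoore_of_le [hp : Fact p.Prime] (h11 : 11 ≤ p) {n : ℕ} (hn : n ≤ 4) :
    StT.HasMoore S p n := by
  obtain ⟨D, hD, ⟨U'⟩, -⟩ := Vale.Agent.P257.H80.exists_muAll S.toSpaceFunctor (P251.M.lineIso S.toSpaceFunctor)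
  obtain ⟨U⟩ := Vale.Agent.P251.S.exists_unitCof D.R
  obtain ⟨C, iC, δ, hC⟩ := distinguished_cocone_triangle ((p : ℤ) • 𝟙 (𝟙_ T.C))
  obtain ⟨V, i, hV⟩ := Vale.Agent.P257.H545.exists_V4P U h11 hC (Vale.Agent.P257.Main.factsP h11)
    (Vale.Agent.P257.H163.todaRel S.toSpaceFunctor D U (by omega) hC)
    (Vale.Agent.P257.H545.stepInput hp.out h11 (fun {_} => Vale.Agent.P257.Main.factsP h11) T.C D U
      C iC)
  have key : ∀ m : ℕ, m ≤ 4 → ∃ (V' : T.C) (i' : 𝟙_ T.C ⟶ V'), STow D p (4 - m + 1) i' := by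
    intro m
    induction m with
    | zero => exact fun _ => ⟨V, i, hV.tow⟩
    | succ m ih =>
      intro hm
      obtain ⟨V', i', h⟩ := ih (by omega)
      have h1 : 4 - m + 1 = (4 - (m + 1) + 1) + 1 := by omega
      rw [h1] at h
      exact STow.prev (by omega) h
  obtain ⟨V', i', hV'⟩ := key (4 - n) (by omega)
  rw [show 4 - (4 - n) + 1 = n + 1 by omega] at hV'
  obtain ⟨P, o, φ, hφ⟩ := exists_isBrownPeterson S p
  obtain ⟨b, hb, ho⟩ := U'.exists_mapS o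
  have hbP : IsBPMon p b := isBPMon_of_isBrownPeterson ptypOut hD U' ptypIn hφ ho
  obtain ⟨Φ, hΦ1, hΦ2⟩ := ptypOut P o φ hφ.typ
  have h4 : lawOf b = (haz p).map Φ := by rw [← hΦ2, U'.lawS_eq ho]; rfl
  exact ⟨P, o, φ, V', hφ, (isTower_of_sTow (by omega) hD hC hbP h4 hΦ1 hV').2⟩

end Vale.Agent.P261.H84
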