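import Vale.Agent.P261.H84.NullTower

/-!
# P261 (helper84): `K(n)`-local objects and generalised Moore spectra of type `n + 1`

* `isZero_morava` : `K ⊗ V = 0` for Morava `K`-theories `K` of height `n` and generalised Moore
  spectra `V` of type `n + 1`;
* `isZero_local` : `Y ⊗ V = 0` for `K`-local `Y`.
-/

open CategoryTheory MonoidalCategory MonObj Limits Pretriangulated

set_option linter.unusedSectionVars false

noncomputable section

namespace Vale.Agent.P261.H84

open Vale.Agent.P251 Vale.Agent.P251.S Vale.Agent.P251.T Vale.Agent.P251.M Vale.Agent.P251.F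
  Vale.Agent.P251.I EvenSpheres Vale.Agent.P257.H702 Vale.Agent.P257.H80
  Vale.Agent.P251.St Vale.Agent.P251.St.SHCat Vale.Agent.P257.St
open Vale.Agent.P221.H395.Fp
open Vale.Agent.P221.St (IsGenMoore)

variable {T : SHCat} {S : Susp T} {p n : ℕ}

/-- **`K ⊗ V = 0`** -/
theorem isZero_morava [hp : Fact p.Prime] (hn : 1 ≤ n) {K : RingSp T} (hK : IsMorava S K p n)
    {P : RingSp T} {o : St.Oriented S P} {φ : GHom S p P} (hφ : IsBrownPeterson p o φ) {V : T.C}
    (hV : IsGenMoore φ (n + 1) V) : IsZero (K.obj ⊗ V) := by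
  obtain ⟨g, hg, hu⟩ := exists_ringMap hn hK hφ
  obtain ⟨m, hm⟩ : ∃ m, m = n + 1 := ⟨_, rfl⟩
  rw [← hm] at hV
  cases hV with
  | base hi hT => omega
  | @step j k i V' W f q h w hV' hi hw hf hT =>
    obtain rfl : j = n := by omega
    obtain ⟨h', hT'⟩ := selfMap_dist hT
    obtain ⟨⟨L, hL⟩, -⟩ := main_ind hp.out hφ.typ hV'
    exact isZero_step g (ModStr.self K.obj) hT'
      (cls_pow hφ.typ ⟨vEl p j, vEl_mem p j⟩ i k (degree_eq hp.out w hw) w hw)
      (gh_of_inducesMul hf) hL hu

end Vale.Agent.P261.H84
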